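import Vale.Agent.P262S.Ridge

/-! Simultaneous control of a nested family of low-dimensional projections. -/

namespace Vale.Agent.P262S
open Finset

variable {N : ℕ}

lemma bump_sum {c x : ℝ} (hc : 2 ≤ c) (hx : 0 ≤ x) (K : ℕ) :
    ∑ k ∈ range K, x * c ^ k / (1 + (x * c ^ k) ^ 2) ≤ 4 := by
  have key : ∀ y : ℝ, 0 ≤ y → y / (1 + y ^ 2) ≤ 4 * (y * c / (1 + y * c) - y / (1 + y)) := by
    intro y hy
    have h1 : 0 < 1 + y * c := by positivity
    have e : 4 * (y * c / (1 + y * c) - y / (1 + y)) =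
        y * (4 * (c - 1)) / ((1 + y * c) * (1 + y)) := by
      field_simp; ring
    rw [e, div_le_div_iff₀ (by positivity) (by positivity), mul_assoc]
    refine mul_le_mul_of_nonneg_left ?_ hy
    nlinarith [mul_nonneg (show 0 ≤ c + 1 by linarith) (sq_nonneg (y - 1)),
      mul_nonneg (show 0 ≤ c - 2 by linarith) (sq_nonneg y), sq_nonneg y]
  have c0 : 0 ≤ c := by linarith
  refine (sum_le_sum fun k _ => key _ (by positivity)).trans ?_
  have := sum_range_sub (fun k => x * c ^ k / (1 + x * c ^ k)) K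
  simp only [pow_succ, ← mul_assoc] at this
  rw [← mul_sum, this]
  have h1 : x * c ^ K / (1 + x * c ^ K) ≤ 1 := (div_le_one (by positivity)).2 (by linarith)
  have h2 : 0 ≤ x * c ^ 0 / (1 + x * c ^ 0) := by positivity
  linarith

lemma scale {g : ℝ} (K : ℕ) (h1 : 1 ≤ g * 64 ^ K) (h2 : g ≤ 64) :
    ∃ k ∈ range (K + 1), 1 / 70 ≤ g * 64 ^ k / (1 + g * 64 ^ k) ^ 2 := by
  have key : ∀ s : ℝ, 1 ≤ s → s ≤ 64 → 1 / 70 ≤ s / (1 + s) ^ 2 := fun s a b => by
    rw [div_le_div_iff₀ (by norm_num) (by positivity)]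
    nlinarith
  induction K with
  | zero => exact ⟨0, by simp, key _ h1 (by simpa using h2)⟩
  | succ K ih =>
    by_cases h : 1 ≤ g * 64 ^ K
    · obtain ⟨k, hk, hk2⟩ := ih h
      exact ⟨k, mem_range.2 ((mem_range.1 hk).trans (Nat.lt_succ_self _)), hk2⟩
    · exact ⟨K + 1, by simp, key _ h1 (by rw [pow_succ, ← mul_assoc]; linarith)⟩

lemma cube_sum {ι : Type} (S : Finset ι) (f : ι → ℝ) (hf : ∀ i, 0 ≤ f i) :
    ∑ i ∈ S, f i ^ 3 ≤ (∑ i ∈ S, f i) ^ 3 := by
  rw [pow_succ' (∑ i ∈ S, f i), sum_mul]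
  refine sum_le_sum fun i hi => ?_
  rw [pow_succ']
  exact mul_le_mul_of_nonneg_left (pow_le_pow_left₀ (hf i) (single_le_sum (fun i _ => hf i) hi) 2)
    (hf i)

lemma bump_cube {y : ℝ} (hy : 0 ≤ y) :
    y ^ 6 / (1 + y ^ 6) ^ 2 * (1 + y ^ 3) ≤ (2 * (y / (1 + y ^ 2))) ^ 3 := by
  have e : (2 * (y / (1 + y ^ 2))) ^ 3 = 8 * y ^ 3 / (1 + y ^ 2) ^ 3 := by
    field_simp; ring
  have h1 : (1 + y ^ 2) ^ 3 ≤ 4 * (1 + y ^ 6) := by
    have := mul_nonneg (sq_nonneg (y ^ 2 - 1)) (show 0 ≤ y ^ 2 + 1 by positivity)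
    nlinarith
  have h2 : y ^ 3 * (1 + y ^ 3) ≤ 2 * (1 + y ^ 6) := by nlinarith [sq_nonneg (y ^ 3 - 1)]
  rw [e, div_mul_eq_mul_div, div_le_div_iff₀ (by positivity) (by positivity)]
  calc y ^ 6 * (1 + y ^ 3) * (1 + y ^ 2) ^ 3
      = y ^ 3 * ((y ^ 3 * (1 + y ^ 3)) * (1 + y ^ 2) ^ 3) := by ring
    _ ≤ y ^ 3 * ((2 * (1 + y ^ 6)) * (4 * (1 + y ^ 6))) := by gcongr
    _ = _ := by ring

/-- The operator of one band. -/
noncomputable def zop (a : Fin N → ℝ) (μ : ℝ) (M : Fin N → Fin N → ℝ) : Op N :=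
  opOf fun l j => a l / μ * M l j

section
variable {V : Submodule ℝ (EuclideanSpace ℝ (Fin N))} {a : Fin N → ℝ} {r : ℕ}
  {z : Fin r → EuclideanSpace ℝ (Fin N)} {g : Fin r → ℝ} {μ : ℝ}

lemma zop_norm (h : Bas V (fun j => a j ^ 2) z g) (x : Fin N → ℝ) :
    ‖zop a μ (rdg z fun i => g i / μ ^ 2) x‖ ^ 2 =
      ∑ i, g i / μ ^ 2 / (1 + g i / μ ^ 2) ^ 2 * (∑ j, z i j * x j) ^ 2 := by
  have e : ∀ l, ∑ j, a l / μ * rdg z (fun i => g i / μ ^ 2) l j * x j =
      a l / μ * ∑ i, (∑ j, z i j * x j) / (1 + g i / μ ^ 2) * z i l := fun l => by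
    simp only [rdg, mul_sum, sum_mul, sum_div]
    rw [sum_comm]
    exact sum_congr rfl fun i _ => sum_congr rfl fun j _ => by ring
  have e2 := quad_diag h.og fun i => (∑ j, z i j * x j) / (1 + g i / μ ^ 2)
  rw [zop, opOf_norm]
  simp only [e, mul_pow, div_pow, div_mul_eq_mul_div (a _ ^ 2), ← sum_div, e2]
  rw [sum_div]
  exact sum_congr rfl fun i _ => by ring

lemma zop_nu (h : Bas V (fun j => a j ^ 2) z g) (hμ : 0 < μ) {y : Fin r → ℝ} (hy : ∀ i, 0 < y i)
    (hg : ∀ i, g i / μ ^ 2 = y i ^ 6) :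
    nu a μ (zop a μ (rdg z fun i => g i / μ ^ 2)) ≤ ∑ i, (2 * (y i / (1 + y i ^ 2))) ^ 3 := by
  simp only [nu, col, zop_norm h]
  simp only [Pi.single_apply, mul_ite, mul_one, mul_zero, sum_ite_eq',
    mem_univ, if_true, hg, mul_sum]
  rw [sum_comm]
  refine sum_le_sum fun i _ => le_trans ?_ (bump_cube (hy i).le)
  have h0 := hy i
  have h1 : ∑ j, (1 + a j / μ) * z i j ^ 2 ≤ 1 + y i ^ 3 := by
    have e1 := h.on i i
    have e2 := h.og i i
    rw [if_pos rfl] at e1 e2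
    have e3 : 1 + y i ^ 3 = ∑ j, ((1 + y i ^ 3 / 2) * (z i j * z i j) +
        a j ^ 2 * (z i j * z i j) / (μ ^ 2 * (2 * y i ^ 3))) := by
      rw [sum_add_distrib, ← mul_sum, ← sum_div, e1, e2, ← div_div, hg]
      field_simp; ring
    rw [e3]
    refine sum_le_sum fun j _ => ?_
    have : a j / μ ≤ y i ^ 3 / 2 + a j ^ 2 / (μ ^ 2 * (2 * y i ^ 3)) := by
      have e : y i ^ 3 / 2 + a j ^ 2 / (μ ^ 2 * (2 * y i ^ 3)) - a j / μ =
          (a j / μ - y i ^ 3) ^ 2 / (2 * y i ^ 3) := by field_simp; ring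
      have : 0 ≤ (a j / μ - y i ^ 3) ^ 2 / (2 * y i ^ 3) := by positivity
      linarith
    refine (mul_le_mul_of_nonneg_right (add_le_add_right this 1) (sq_nonneg _)).trans
      (le_of_eq (by ring))
  refine le_trans (le_of_eq ?_) (mul_le_mul_of_nonneg_left h1 (by positivity))
  rw [mul_sum]
  exact sum_congr rfl fun j _ => by ring

lemma zop_sub (M M' : Fin N → Fin N → ℝ) : nu a μ (zop a μ M' - zop a μ M) ≤
    3 / 2 * ∑ l, (a l / μ) ^ 2 * ∑ j, (1 + a j ^ 2 / μ ^ 2) * (M' l j - M l j) ^ 2 := by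
  simp only [nu, zop, opOf_sub, opOf_col, mul_sum]
  rw [sum_comm]
  refine sum_le_sum fun l _ => sum_le_sum fun j _ => ?_
  have : 1 + a j / μ ≤ 3 / 2 * (1 + a j ^ 2 / μ ^ 2) := by
    rw [← div_pow]; nlinarith [sq_nonneg (a j / μ - 1 / 3)]
  exact (mul_le_mul_of_nonneg_right this (sq_nonneg _)).trans (le_of_eq (by ring))

lemma Bas.pair {b : Fin N → ℝ} (h : Bas V b z g) {x : EuclideanSpace ℝ (Fin N)} (hx : x ∈ V)
    (ξ : Fin N → ℝ) :
    (∑ j, x j * ξ j) ^ 2 ≤ (∑ j, x j ^ 2) * ∑ i, (∑ j, z i j * ξ j) ^ 2 := by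
  have e1 : ∑ j, x j * ξ j = ∑ i, (∑ l, z i l * x l) * ∑ j, z i j * ξ j := by
    rw [sum_congr rfl fun j _ => congrArg (· * ξ j) (h.span x hx j)]
    simp only [sum_mul _ _ (ξ _)]
    rw [sum_comm]
    exact sum_congr rfl fun i _ => by rw [mul_sum _ _ (∑ l, z i l * x l)]; simp only [mul_assoc]
  have e2 := quad_diag (b := fun _ => 1) (g := fun _ => 1) (z := z)
    (fun i l => by simpa using h.on i l) fun i => ∑ l, z i l * x l
  simp only [one_mul, ← h.span x hx] at e2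
  rw [e1, e2]
  exact sum_mul_sq_le_sq_mul_sq _ _ _

end

theorem band (hN : 0 < N) (V : ℕ → Submodule ℝ (EuclideanSpace ℝ (Fin N))) {d : ℕ} (hd : 1 ≤ d)
    (hr : ∀ t, Module.finrank ℝ (V t) ≤ d)
    (hs : ∀ t, ∀ x ∈ V t, ∀ j : Fin N, t ≤ j.val → x j = 0)
    (htr : ∀ s t, s ≤ t → ∀ x ∈ V t,
      WithLp.toLp 2 (fun j : Fin N => if j.val < s then x j else 0) ∈ V s)
    {a : Fin N → ℝ} (ha : ∀ j, 1 / (N : ℝ) ≤ a j) (ha2 : ∑ j, a j ≤ 2) :
    Ctl a (1 / 10 ^ 9) fun ξ => ∀ t, t ≤ N → ∀ x ∈ V t,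
      (∑ j, x j * ξ j) ^ 2 ≤ 10 ^ 13 * d * ∑ j, x j ^ 2 := by
  have N0 : (0 : ℝ) < N := by exact_mod_cast hN
  have d1 : (1 : ℝ) ≤ d := by exact_mod_cast hd
  have a0 : ∀ j, 0 < a j := fun j => lt_of_lt_of_le (by positivity) (ha j)
  have a2 : ∀ j, a j ≤ 2 := fun j =>
    (single_le_sum (fun j _ => (a0 j).le) (mem_univ j)).trans ha2
  have N2 : (N : ℝ) + 1 ≤ 2 ^ N := by exact_mod_cast Nat.lt_two_pow_self
  choose z g hb using fun t => exists_bas (V t) fun j => a j ^ 2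
  have hg : ∀ t i, 1 / (N : ℝ) ^ 2 ≤ g t i ∧ g t i ≤ 4 := fun t i => by
    have e1 := (hb t).on i i
    have e2 := (hb t).og i i
    rw [if_pos rfl] at e1 e2
    have e3 : ∀ c : ℝ, c = ∑ j, c * (z t i j * z t i j) := fun c => by rw [← mul_sum, e1, mul_one]
    rw [← e2, e3 (1 / (N : ℝ) ^ 2), e3 4]
    refine ⟨sum_le_sum fun j _ => mul_le_mul_of_nonneg_right ?_ (mul_self_nonneg _),
      sum_le_sum fun j _ => mul_le_mul_of_nonneg_right ?_ (mul_self_nonneg _)⟩
    · rw [← one_div_pow]; exact pow_le_pow_left₀ (by positivity) (ha j) 2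
    · nlinarith [a0 j, a2 j]
  have g0 : ∀ t i, 0 < g t i := fun t i => lt_of_lt_of_le (by positivity) (hg t i).1
  let μ : ℕ → ℝ := fun k => 1 / 8 ^ k
  have μ0 : ∀ k, 0 < μ k := fun k => by positivity
  have hμ : ∀ k (x : ℝ), x / μ k ^ 2 = x * 64 ^ k := fun k x => by
    rw [show (64 : ℝ) = 8 ^ 2 by norm_num, ← pow_mul, mul_comm 2 k, pow_mul]
    simp [μ]
  let M : ℕ → ℕ → Fin N → Fin N → ℝ := fun k t => rdg (z t) fun i => g t i / μ k ^ 2
  let w : ℕ → Fin N → ℝ := fun k j => 1 + a j ^ 2 / μ k ^ 2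
  have w0 : ∀ k j, 0 < w k j := fun k j => by positivity
  have hM : ∀ k t, Rdg (V t) (w k) (M k t) := fun k t =>
    (hb t).rdg fun i => div_nonneg (g0 t i).le (sq_nonneg _)
  let c : ℕ → ℕ → ℝ := fun k t => 3 / 2 * ∑ l, (a l / μ k) ^ 2 * kap (w k) (M k t) t l
  have H := Ctl.all (range (N + 1)) fun k _ => chain (fun j => (a0 j).le) (μ0 k) N
    (fun t => zop a (μ k) (M k t))
    (by
      ext j l
      have : M k 0 l j = 0 := hs 0 _ ((hM k 0).mem l) j (Nat.zero_le _)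
      simp [zop, opOf, Pi.single_apply, this])
    (c k) (by simp [c, kap])
    (fun s t hst _ => (zop_sub _ _).trans (by
      simp only [c, ← mul_sub, ← sum_sub_distrib]
      gcongr with l
      exact row_le (hM k s) (hM k t) (w0 k) hst (hs s) (hs t) (htr s t hst) l)) N
  refine H.mono ?_ fun ξ hξ t ht x hx => ?_
  · have h1 : ∀ k, μ k / 10 ^ 12 * (4 * c k N + ((N : ℝ) + 1) / (2 ^ N) ^ 8) ≤ 1 / 10 ^ 12 *
        (12 * ∑ l, a l * (a l * 8 ^ k / (1 + (a l * 8 ^ k) ^ 2)) + 1 / ((N : ℝ) + 1)) := by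
      intro k
      have h2 : μ k * c k N ≤ 3 * ∑ l, a l * (a l * 8 ^ k / (1 + (a l * 8 ^ k) ^ 2)) := by
        simp only [c, mul_sum]
        refine sum_le_sum fun l _ => ?_
        have h3 : kap (w k) (M k N) N l ≤ 2 / w k l := by
          rw [kap, if_pos l.2]; linarith [((hM k N).diag_le (w0 k) l).1]
        have := μ0 k
        refine le_trans (by gcongr) (le_of_eq (show μ k * (3 / 2 * ((a l / μ k) ^ 2 *
          (2 / w k l))) = _ from ?_))
        simp only [w, μ]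
        field_simp
      have h3 : μ k * (((N : ℝ) + 1) / (2 ^ N) ^ 8) ≤ 1 / ((N : ℝ) + 1) := by
        have h4 : μ k ≤ 1 := (div_le_one (by positivity)).2 (one_le_pow₀ (by norm_num))
        refine (mul_le_of_le_one_left (by positivity) h4).trans ?_
        rw [div_le_div_iff₀ (by positivity) (by positivity), one_mul, ← sq]
        exact (pow_le_pow_left₀ (by positivity) N2 2).trans
          (pow_le_pow_right₀ (by linarith) (by norm_num))
      nlinarith
    refine (sum_le_sum fun k _ => h1 k).trans ?_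
    have h4 : ∑ k ∈ range (N + 1), ∑ l, a l * (a l * 8 ^ k / (1 + (a l * 8 ^ k) ^ 2)) ≤ 8 := by
      rw [sum_comm]
      simp only [← mul_sum]
      refine (sum_le_sum fun l _ => mul_le_mul_of_nonneg_left
        (bump_sum (by norm_num) (a0 l).le _) (a0 l).le).trans ?_
      rw [← sum_mul]; linarith
    have h5 : ∑ _k ∈ range (N + 1), 1 / ((N : ℝ) + 1) = 1 := by
      simp only [sum_const, card_range, nsmul_eq_mul]
      push_cast
      field_simp
    rw [← mul_sum, sum_add_distrib, ← mul_sum, h5]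
    linarith
  · let y : Fin _ → ℝ := fun i => g t i ^ ((6 : ℕ) : ℝ)⁻¹
    have y0 : ∀ i, 0 < y i := fun i => Real.rpow_pos_of_pos (g0 t i) _
    let m : ℕ → ℝ := fun k => ∑ i, 2 * (y i * 2 ^ k / (1 + (y i * 2 ^ k) ^ 2))
    have hz : ∀ k ∈ range (N + 1), ‖zop a (μ k) (M k t) ξ‖ ^ 2 ≤
        3 * 10 ^ 9 * (2 * m k + 1 / ((N : ℝ) + 1)) := fun k hk => by
      have f0 : ∀ i, 0 ≤ 2 * (y i * 2 ^ k / (1 + (y i * 2 ^ k) ^ 2)) := fun i => by
        have := y0 i; positivity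
      have h1 := zop_nu (hb t) (μ0 k) (y := fun i => y i * 2 ^ k)
        (fun i => by have := y0 i; positivity) fun i => by
          rw [hμ, mul_pow, Real.rpow_inv_natCast_pow (g0 t i).le (by norm_num), ← pow_mul,
            mul_comm k 6, pow_mul]
          norm_num
      have h2 : nu a (μ k) (zop a (μ k) (M k t)) ≤ m k := h1.trans (sum_le_sum fun i _ => by
        refine pow_le_of_le_one (f0 i) ?_ (by norm_num)
        rw [← mul_div_assoc, div_le_one (by positivity)]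
        nlinarith [sq_nonneg (y i * 2 ^ k - 1)])
      have h3 : 1 / ((2 : ℝ) ^ N) ^ 2 ≤ 1 / ((N : ℝ) + 1) :=
        one_div_le_one_div_of_le (by positivity) (by nlinarith)
      have := hξ k hk t ht (m k) (sum_nonneg fun i _ => f0 i) (h1.trans (cube_sum _ _ f0))
      linarith
    have h4 : ∑ k ∈ range (N + 1), m k ≤ 8 * d := by
      simp only [m]
      rw [sum_comm]
      simp only [← mul_sum]
      have : ∑ i, ∑ k ∈ range (N + 1), y i * 2 ^ k / (1 + (y i * 2 ^ k) ^ 2) ≤ 4 * (d : ℝ) := by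
        refine (sum_le_sum fun i _ => bump_sum le_rfl (y0 i).le _).trans ?_
        have : (Module.finrank ℝ (V t) : ℝ) ≤ d := by exact_mod_cast hr t
        simp only [sum_const, card_univ, Fintype.card_fin, nsmul_eq_mul]
        linarith
      linarith
    have h5 : ∑ _k ∈ range (N + 1), 1 / ((N : ℝ) + 1) = 1 := by
      simp only [sum_const, card_range, nsmul_eq_mul]
      push_cast
      field_simp
    have h6 := sum_le_sum hz
    rw [← mul_sum, sum_add_distrib, ← mul_sum, h5] at h6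
    have h7 : 1 / 70 * ∑ i, (∑ j, z t i j * ξ j) ^ 2 ≤
        ∑ k ∈ range (N + 1), ‖zop a (μ k) (M k t) ξ‖ ^ 2 := by
      simp only [M, zop_norm (hb t)]
      rw [sum_comm, mul_sum]
      refine sum_le_sum fun i _ => ?_
      rw [← sum_mul]
      refine mul_le_mul_of_nonneg_right ?_ (sq_nonneg _)
      obtain ⟨k, hk, h8⟩ := scale (g := g t i) N (by
        refine le_trans ?_ (mul_le_mul_of_nonneg_right (hg t i).1 (by positivity))
        rw [one_div_mul_eq_div, le_div_iff₀ (by positivity), one_mul,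
          show (64 : ℝ) = 8 ^ 2 by norm_num, ← pow_mul, mul_comm 2 N, pow_mul]
        refine pow_le_pow_left₀ N0.le ?_ 2
        linarith [pow_le_pow_left₀ (by norm_num : (0 : ℝ) ≤ 2) (by norm_num : (2 : ℝ) ≤ 8) N])
        (by linarith [(hg t i).2])
      simp only [hμ]
      exact h8.trans (single_le_sum (f := fun k => g t i * 64 ^ k / (1 + g t i * 64 ^ k) ^ 2)
        (fun k _ => by have := g0 t i; positivity) hk)
    refine ((hb t).pair hx ξ).trans ?_
    rw [mul_comm]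
    exact mul_le_mul_of_nonneg_right (by linarith) (sum_nonneg fun j _ => sq_nonneg _)

end Vale.Agent.P262S
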