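import Vale.Agent.P262S.Mix

/-! A chaining argument along a clock. -/

namespace Vale.Agent.P262S
open Finset

variable {N : ℕ} {a : Fin N → ℝ} {μ : ℝ}

/-- Weighted squared Hilbert-Schmidt norm. -/
noncomputable def nu (a : Fin N → ℝ) (μ : ℝ) (L : Op N) : ℝ := ∑ j, (1 + a j / μ) * col L j

lemma nu_nonneg (ha : ∀ j, 0 ≤ a j) (hμ : 0 < μ) (L : Op N) : 0 ≤ nu a μ L :=
  sum_nonneg fun j _ => mul_nonneg (by have := ha j; positivity) (col_nonneg _ _)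

lemma nu_eq (L : Op N) : nu a μ L = hs L + (∑ j, a j * col L j) / μ := by
  simp only [nu, hs, sum_div, ← sum_add_distrib]
  exact sum_congr rfl fun j _ => by ring

lemma nu_smul (c : ℝ) (L : Op N) : nu a μ (c • L) = c ^ 2 * nu a μ L := by
  simp only [nu, col, mul_sum, LinearMap.smul_apply, norm_smul, mul_pow, Real.norm_eq_abs, sq_abs]
  exact sum_congr rfl fun j _ => by ring

lemma nu_le (ha : ∀ j, 0 ≤ a j) (hμ : 0 < μ) (L L' : Op N) :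
    nu a μ L ≤ 2 * nu a μ L' + 2 * nu a μ (L' - L) := by
  simp only [nu, mul_sum, ← sum_add_distrib]
  refine sum_le_sum fun j _ => ?_
  have h0 : 0 ≤ 1 + a j / μ := by have := ha j; positivity
  have h1 : col L j ≤ 2 * col L' j + 2 * col (L' - L) j := by
    simp only [col, LinearMap.sub_apply]
    have := norm_sub_le (L' (Pi.single j 1)) (L' (Pi.single j 1) - L (Pi.single j 1))
    rw [sub_sub_cancel] at this
    nlinarith [mul_self_le_mul_self (norm_nonneg _) this,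
      sq_nonneg (‖L' (Pi.single j 1)‖ - ‖L' (Pi.single j 1) - L (Pi.single j 1)‖)]
  nlinarith [mul_le_mul_of_nonneg_left h1 h0]

lemma Ctl.one (ha : ∀ j, 0 ≤ a j) (hμ : 0 < μ) (L : Op N) {u : ℝ} (hu : 1 ≤ u) :
    Ctl a (μ / 10 ^ 12 / u ^ 8) fun x =>
      ‖L x‖ ^ 2 ≤ 4 * 10 ^ 6 * (1 / u ^ 2 + u ^ 4 * nu a μ L) := by
  have n0 := nu_nonneg ha hμ L
  set r : ℝ := 10 ^ 6 * (1 / u ^ 2 + u ^ 4 * nu a μ L) with hr
  have r0 : 0 < r := by positivity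
  have s0 : 0 < √r := Real.sqrt_pos.2 r0
  have h1 : nu a μ ((√r)⁻¹ • L) ≤ 1 / (10 ^ 6 * u ^ 4) := by
    rw [nu_smul, inv_pow, Real.sq_sqrt r0.le, inv_mul_eq_div, div_le_div_iff₀ r0 (by positivity),
      hr]
    have : 0 ≤ 1 / u ^ 2 := by positivity
    nlinarith
  have h2 := nu_eq (a := a) (μ := μ) ((√r)⁻¹ • L)
  have h3 := hs_nonneg ((√r)⁻¹ • L)
  have h4 : 0 ≤ ∑ j, a j * col ((√r)⁻¹ • L) j :=
    sum_nonneg fun j _ => mul_nonneg (ha j) (col_nonneg _ _)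
  have h5 : 0 ≤ (∑ j, a j * col ((√r)⁻¹ • L) j) / μ := by positivity
  have h6 : 1 / (10 ^ 6 * u ^ 4) ≤ 1 / 3600 :=
    one_div_le_one_div_of_le (by norm_num) (by nlinarith [one_le_pow₀ (n := 4) hu])
  refine (Ctl.single ((√r)⁻¹ • L) (by linarith)).mono ?_ fun x hx => ?_
  · have h7 : ∑ j, a j * col ((√r)⁻¹ • L) j ≤ 1 / (10 ^ 6 * u ^ 4) * μ :=
      (div_le_iff₀ hμ).1 (by linarith)
    refine (mul_le_mul h7 (show hs _ ≤ 1 / (10 ^ 6 * u ^ 4) by linarith) h3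
      (by positivity)).trans (le_of_eq ?_)
    field_simp
  · rw [LinearMap.smul_apply, norm_smul, norm_inv, Real.norm_of_nonneg s0.le,
      inv_mul_le_iff₀ s0] at hx
    have := mul_self_le_mul_self (norm_nonneg _) hx
    nlinarith [Real.mul_self_sqrt r0.le]

lemma starts (n : ℕ) (c : ℕ → ℝ) (c0 : c 0 = 0) (hc : ∀ s t, s ≤ t → t ≤ n → c s ≤ c t) {q : ℝ}
    (hq : 0 < q) : ∃ (A : Finset ℕ) (st : ℕ → ℕ), (A.card : ℝ) ≤ q * c n ∧ (∀ s ∈ A, s ≤ n) ∧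
      ∀ s, s ≤ n → st s ≤ s ∧ (st s = 0 ∨ st s ∈ A) ∧ c s - c (st s) ≤ 1 / q := by
  classical
  let f : ℕ → ℕ := fun s => ⌊q * c s⌋₊
  have ex : ∀ s, ∃ s', f s' = f s := fun s => ⟨s, rfl⟩
  have cn : ∀ s, s ≤ n → 0 ≤ q * c s := fun s hs =>
    mul_nonneg hq.le (c0 ▸ hc 0 s (Nat.zero_le s) hs)
  refine ⟨(range (n + 1)).filter fun s => s ≠ 0 ∧ ∀ s' < s, f s' ≠ f s, fun s => Nat.find (ex s),
    ?_, fun s hs => Nat.lt_succ_iff.1 (mem_range.1 (mem_filter.1 hs).1), fun s hs => ?_⟩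
  · have : ((range (n + 1)).filter fun s => s ≠ 0 ∧ ∀ s' < s, f s' ≠ f s).card ≤
        (Icc 1 (f n)).card := by
      refine card_le_card_of_injOn f (fun s hs => ?_) fun s hs s' hs' h => ?_
      · obtain ⟨h1, h2, h3⟩ := mem_filter.1 (mem_coe.1 hs)
        have h4 := h3 0 (Nat.pos_of_ne_zero h2)
        have h5 : f 0 = 0 := by simp [f, c0]
        refine mem_coe.2 (mem_Icc.2 ⟨by omega, Nat.floor_mono ?_⟩)
        exact mul_le_mul_of_nonneg_left (hc s n (Nat.lt_succ_iff.1 (mem_range.1 h1)) le_rfl) hq.le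
      · rcases lt_trichotomy s s' with l | l | l
        · exact absurd h ((mem_filter.1 (mem_coe.1 hs')).2.2 s l)
        · exact l
        · exact absurd h.symm ((mem_filter.1 (mem_coe.1 hs)).2.2 s' l)
    rw [Nat.card_Icc, Nat.add_sub_cancel] at this
    exact le_trans (by exact_mod_cast this) (Nat.floor_le (cn n le_rfl))
  · have h1 : Nat.find (ex s) ≤ s := Nat.find_min' _ rfl
    have h2 : f (Nat.find (ex s)) = f s := Nat.find_spec (ex s)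
    refine ⟨h1, ?_, ?_⟩
    · rw [or_iff_not_imp_left]
      intro h0
      refine mem_filter.2 ⟨mem_range.2 (Nat.lt_succ_of_le (h1.trans hs)), h0, fun s' hs' h => ?_⟩
      exact Nat.find_min (ex s) hs' (h.trans h2)
    · have h3 : q * c s < f s + 1 := Nat.lt_floor_add_one _
      have h4 : (f (Nat.find (ex s)) : ℝ) ≤ q * c (Nat.find (ex s)) :=
        Nat.floor_le (cn _ (h1.trans hs))
      rw [h2] at h4
      rw [le_div_iff₀ hq]
      linarith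

lemma geo (J : ℕ) : ∑ j ∈ range J, 1 / ((2 : ℝ) ^ j) ^ 2 ≤ 2 := by
  have : ∑ j ∈ range J, 1 / ((2 : ℝ) ^ j) ^ 2 ≤ 2 - 2 / ((2 : ℝ) ^ J) ^ 2 := by
    induction J with
    | zero => simp
    | succ J ih =>
      rw [sum_range_succ, pow_succ 2 J, mul_pow]
      have h : (0 : ℝ) < ((2 : ℝ) ^ J) ^ 2 := by positivity
      have e : 2 / (((2 : ℝ) ^ J) ^ 2 * 2 ^ 2) = 1 / 2 * (1 / ((2 : ℝ) ^ J) ^ 2) := by field_simp
      have e2 : 2 / ((2 : ℝ) ^ J) ^ 2 = 2 * (1 / ((2 : ℝ) ^ J) ^ 2) := by ring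
      have : 0 < 1 / ((2 : ℝ) ^ J) ^ 2 := by positivity
      linarith
  have h : 0 ≤ 2 / ((2 : ℝ) ^ J) ^ 2 := by positivity
  linarith

lemma pick (x : ℝ) (J : ℕ) : ∃ j, j ≤ J ∧ (j = 0 ∨ x * ((2 : ℝ) ^ j) ^ 6 ≤ 1) ∧
    (j = J ∨ 1 < x * ((2 : ℝ) ^ (j + 1)) ^ 6) := by
  induction J with
  | zero => exact ⟨0, le_rfl, Or.inl rfl, Or.inl rfl⟩
  | succ J ih =>
    obtain ⟨j, h1, h2, rfl | h3⟩ := ih
    · rcases le_or_gt (x * ((2 : ℝ) ^ (j + 1)) ^ 6) 1 with h | h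
      · exact ⟨j + 1, le_rfl, Or.inr h, Or.inl rfl⟩
      · exact ⟨j, by omega, h2, Or.inr h⟩
    · exact ⟨j, by omega, h2, Or.inr h3⟩

lemma norm_le_of_sq {y u ν : ℝ} (hu : 0 < u) (hν : ν ≤ 64 / u ^ 6)
    (h : y ^ 2 ≤ 4 * 10 ^ 6 * (1 / u ^ 2 + u ^ 4 * ν)) : y ≤ 17000 / u := by
  refine le_of_pow_le_pow_left₀ (n := 2) (by norm_num) (by positivity) (h.trans ?_)
  have h1 : u ^ 4 * ν ≤ 64 * (1 / u ^ 2) :=
    (mul_le_mul_of_nonneg_left hν (by positivity)).trans (le_of_eq (by field_simp))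
  have h2 : (17000 / u) ^ 2 = 17000 ^ 2 * (1 / u ^ 2) := by field_simp
  have : 0 < 1 / u ^ 2 := by positivity
  rw [h2]; linarith

theorem chain (ha : ∀ j, 0 ≤ a j) (hμ : 0 < μ) (n : ℕ) (Z : ℕ → Op N) (Z0 : Z 0 = 0)
    (c : ℕ → ℝ) (c0 : c 0 = 0)
    (hc : ∀ s t, s ≤ t → t ≤ n → nu a μ (Z t - Z s) ≤ c t - c s) (J : ℕ) :
    Ctl a (μ / 10 ^ 12 * (4 * c n + (n + 1) / ((2 : ℝ) ^ J) ^ 8)) fun x => ∀ t, t ≤ n →
      ∀ m : ℝ, 0 ≤ m → nu a μ (Z t) ≤ m ^ 3 →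
        ‖Z t x‖ ^ 2 ≤ 3 * 10 ^ 9 * (nu a μ (Z t) + m + 1 / ((2 : ℝ) ^ J) ^ 2) := by
  have hm : ∀ s t, s ≤ t → t ≤ n → c s ≤ c t := fun s t h1 h2 => by
    linarith [hc s t h1 h2, nu_nonneg ha hμ (Z t - Z s)]
  have cn : 0 ≤ c n := c0 ▸ hm 0 n (Nat.zero_le n) le_rfl
  have u1 : ∀ j : ℕ, (1 : ℝ) ≤ 2 ^ j := fun j => one_le_pow₀ (by norm_num)
  choose A st hA hn hst using fun j : ℕ =>
    starts n c c0 hm (q := ((2 : ℝ) ^ j) ^ 6) (by positivity)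
  have hcost : ∀ j : ℕ, ∑ _s ∈ A j, μ / 10 ^ 12 / ((2 : ℝ) ^ j) ^ 8 ≤
      μ / 10 ^ 12 * c n * (1 / ((2 : ℝ) ^ j) ^ 2) := fun j => by
    rw [sum_const, nsmul_eq_mul]
    refine (mul_le_mul_of_nonneg_right (hA j) (by positivity)).trans (le_of_eq ?_)
    field_simp
  have hsum : ∀ (K : ℕ) (g : ℕ → ℕ), (∀ j, j ≤ g j) →
      ∑ j ∈ range K, ∑ _s ∈ A (g j), μ / 10 ^ 12 / ((2 : ℝ) ^ g j) ^ 8 ≤
        μ / 10 ^ 12 * c n * 2 := fun K g hg => by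
    refine (sum_le_sum fun j _ => (hcost (g j)).trans (mul_le_mul_of_nonneg_left
      (show _ ≤ 1 / ((2 : ℝ) ^ j) ^ 2 from one_div_le_one_div_of_le (by positivity)
        (pow_le_pow_left₀ (by positivity) (pow_le_pow_right₀ (by norm_num) (hg j)) 2))
      (by positivity))).trans ?_
    rw [← mul_sum]
    exact mul_le_mul_of_nonneg_left (geo K) (by positivity)
  have C1 := Ctl.all (range (J + 1)) fun j _ =>
    Ctl.all (A j) fun s _ => Ctl.one ha hμ (Z s) (u1 j)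
  have C2 := Ctl.all (range J) fun j _ =>
    Ctl.all (A (j + 1)) fun s _ => Ctl.one ha hμ (Z s - Z (st j s)) (u1 (j + 1))
  have C3 := Ctl.all (range (n + 1)) fun s _ => Ctl.one ha hμ (Z s - Z (st J s)) (u1 J)
  refine (C1.and (C2.and C3)).mono ?_ fun x hx t ht m m0 hm3 => ?_
  · have a1 := hsum (J + 1) id fun _ => le_rfl
    have a2 := hsum J (· + 1) fun _ => Nat.le_succ _
    simp only [id] at a1
    rw [sum_const, card_range, nsmul_eq_mul]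
    have e : μ / 10 ^ 12 * (4 * c n + (n + 1) / ((2 : ℝ) ^ J) ^ 8) = μ / 10 ^ 12 * c n * 2 +
        (μ / 10 ^ 12 * c n * 2 + ((n + 1 : ℕ) : ℝ) * (μ / 10 ^ 12 / ((2 : ℝ) ^ J) ^ 8)) := by
      push_cast; ring
    rw [e]
    exact add_le_add a1 (add_le_add a2 le_rfl)
  obtain ⟨h1, h2, h3⟩ := hx
  have desc : ∀ i j, j + i = J → ∃ s, s ≤ t ∧ (s = 0 ∨ s ∈ A j) ∧
      c t - c s ≤ 2 / ((2 : ℝ) ^ j) ^ 6 ∧ ‖Z t x - Z s x‖ ≤ 17000 / 2 ^ j := by
    intro i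
    induction i with
    | zero =>
      intro j hj
      obtain rfl : j = J := hj
      obtain ⟨b1, b2, b3⟩ := hst j t ht
      have p : 0 < 1 / ((2 : ℝ) ^ j) ^ 6 := by positivity
      have e1 : 2 / ((2 : ℝ) ^ j) ^ 6 = 2 * (1 / ((2 : ℝ) ^ j) ^ 6) := by ring
      have e2 : 64 / ((2 : ℝ) ^ j) ^ 6 = 64 * (1 / ((2 : ℝ) ^ j) ^ 6) := by ring
      refine ⟨st j t, b1, b2, by linarith, ?_⟩
      exact norm_le_of_sq (by positivity) (by linarith [hc _ _ b1 ht])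
        (h3 t (mem_range.2 (by omega)))
    | succ i ih =>
      intro j hj
      obtain ⟨s, b1, b2, b3, b4⟩ := ih (j + 1) (by omega)
      have p : 0 < 1 / ((2 : ℝ) ^ j) ^ 6 := by positivity
      have p' : 0 < 17000 / (2 : ℝ) ^ (j + 1) := by positivity
      have e1 : 2 / ((2 : ℝ) ^ j) ^ 6 = 2 * (1 / ((2 : ℝ) ^ j) ^ 6) := by ring
      have e2 : 2 / ((2 : ℝ) ^ (j + 1)) ^ 6 = 1 / 32 * (1 / ((2 : ℝ) ^ j) ^ 6) := by
        rw [pow_succ 2 j]; field_simp; norm_num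
      have e3 : 64 / ((2 : ℝ) ^ (j + 1)) ^ 6 = 1 / ((2 : ℝ) ^ j) ^ 6 := by
        rw [pow_succ 2 j]; field_simp; norm_num
      have e4 : 17000 / (2 : ℝ) ^ j = 2 * (17000 / (2 : ℝ) ^ (j + 1)) := by
        rw [pow_succ 2 j]; field_simp
      rcases b2 with rfl | b2
      · exact ⟨0, b1, Or.inl rfl, by linarith, by linarith⟩
      · obtain ⟨d1, d2, d3⟩ := hst j s (hn _ s b2)
        refine ⟨st j s, d1.trans b1, d2, by linarith, ?_⟩
        have d4 := norm_le_of_sq (by positivity) (by linarith [hc _ _ d1 (hn _ s b2)])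
          (h2 j (mem_range.2 (by omega)) s b2)
        rw [LinearMap.sub_apply] at d4
        linarith [norm_sub_le_norm_sub_add_norm_sub (Z t x) (Z s x) (Z (st j s) x)]
  obtain ⟨j, j1, j2, j3⟩ := pick (nu a μ (Z t)) J
  obtain ⟨s, b1, b2, b3, b4⟩ := desc (J - j) j (by omega)
  have n0 := nu_nonneg ha hμ (Z t)
  have uj := u1 j
  set u : ℝ := 2 ^ j with hu
  have p : 0 < 1 / u ^ 2 := by positivity
  have k1 : u ^ 4 * nu a μ (Z t) ≤ nu a μ (Z t) + 1 / u ^ 2 := by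
    rcases j2 with rfl | j2
    · simp only [hu, pow_zero, one_pow]; linarith
    · have : u ^ 4 * nu a μ (Z t) ≤ 1 / u ^ 2 := by
        rw [le_div_iff₀ (by positivity)]; linarith
      linarith
  have k2 : u ^ 4 * nu a μ (Z s) ≤ 2 * nu a μ (Z t) + 6 * (1 / u ^ 2) := by
    have l1 := nu_le ha hμ (Z s) (Z t)
    have l2 := (hc s t b1 ht).trans b3
    have l3 : u ^ 4 * (2 / u ^ 6) = 2 * (1 / u ^ 2) := by field_simp
    have l4 := mul_le_mul_of_nonneg_left (show nu a μ (Z s) ≤ 2 * nu a μ (Z t) + 2 * (2 / u ^ 6)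
      by linarith) (show 0 ≤ u ^ 4 by positivity)
    linarith
  have k3 : ‖Z s x‖ ^ 2 ≤ 4 * 10 ^ 6 * (2 * nu a μ (Z t) + 7 * (1 / u ^ 2)) := by
    rcases b2 with rfl | b2
    · rw [Z0, LinearMap.zero_apply, norm_zero, zero_pow two_ne_zero]; positivity
    · linarith [h1 j (mem_range.2 (by omega)) s b2]
  have k4 : ‖Z t x‖ ^ 2 ≤ 2 * ‖Z s x‖ ^ 2 + 2 * 17000 ^ 2 * (1 / u ^ 2) := by
    have l1 := norm_add_le (Z t x - Z s x) (Z s x)
    rw [sub_add_cancel] at l1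
    have l2 := mul_self_le_mul_self (norm_nonneg _) b4
    have l3 : 17000 / u * (17000 / u) = 17000 ^ 2 * (1 / u ^ 2) := by field_simp
    nlinarith [mul_self_le_mul_self (norm_nonneg _) l1,
      sq_nonneg (‖Z t x - Z s x‖ - ‖Z s x‖)]
  have k5 : 1 / u ^ 2 ≤ 4 * m + 1 / ((2 : ℝ) ^ J) ^ 2 := by
    rcases j3 with rfl | j3
    · linarith
    · have l1 : 1 / u ^ 2 ≤ 4 * m := by
        refine le_of_pow_le_pow_left₀ (n := 3) (by norm_num) (by positivity) ?_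
        rw [pow_succ 2 j, ← hu] at j3
        have l2 := mul_le_mul_of_nonneg_right hm3 (show 0 ≤ (u * 2) ^ 6 by positivity)
        rw [div_pow, div_le_iff₀ (by positivity)]
        nlinarith
      have : 0 < 1 / ((2 : ℝ) ^ J) ^ 2 := by positivity
      linarith
  have : 0 < 1 / ((2 : ℝ) ^ J) ^ 2 := by positivity
  linarith

end Vale.Agent.P262S
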