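import Mathlib

/-! A smooth cutoff function of a norm. -/

namespace Vale.Agent.P262S

/-- The cutoff profile. -/
noncomputable def cut (u : ℝ) : ℝ := max 0 (1 - (max 0 (u - 1)) ^ 2)

lemma cut_nonneg (u : ℝ) : 0 ≤ cut u := le_max_left _ _

lemma cut_le_one (u : ℝ) : cut u ≤ 1 :=
  max_le zero_le_one (by nlinarith [sq_nonneg (max 0 (u - 1))])

lemma cut_eq_one {u : ℝ} (h : u ≤ 1) : cut u = 1 := by
  unfold cut
  rw [max_eq_left (by linarith : u - 1 ≤ 0)]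
  norm_num

lemma cut_le_two {u : ℝ} (h : cut u ≠ 0) : u ≤ 2 := by
  by_contra hc
  apply h
  unfold cut
  rw [max_eq_right (by linarith : 0 ≤ u - 1)]
  exact max_eq_left (by nlinarith)

lemma continuous_cut : Continuous cut := by
  unfold cut; fun_prop

lemma cut_mid_real {u v w : ℝ} (h : w ≤ (u + v) / 2) : cut u * cut v ≤ cut w ^ 2 := by
  unfold cut
  have hp := le_max_left 0 (u - 1)
  have hq := le_max_left 0 (v - 1)
  have hr := le_max_left 0 (w - 1)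
  have h1 : max 0 (w - 1) ≤ (max 0 (u - 1) + max 0 (v - 1)) / 2 :=
    max_le (by linarith) (by linarith [le_max_right 0 (u - 1), le_max_right 0 (v - 1)])
  generalize max 0 (u - 1) = p at *
  generalize max 0 (v - 1) = q at *
  generalize max 0 (w - 1) = r at *
  rcases le_total (1 - p ^ 2) 0 with a | a
  · rw [max_eq_left a, zero_mul]; positivity
  rcases le_total (1 - q ^ 2) 0 with b | b
  · rw [max_eq_left b, mul_zero]; positivity
  rw [max_eq_right a, max_eq_right b]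
  have h2 : ((1 - p ^ 2) + (1 - q ^ 2)) / 2 ≤ 1 - r ^ 2 := by
    nlinarith [sq_nonneg (p - q), mul_self_le_mul_self hr h1]
  have h3 := h2.trans (le_max_right 0 (1 - r ^ 2))
  have h4 := mul_self_le_mul_self (by linarith) h3
  nlinarith [sq_nonneg ((1 - p ^ 2) - (1 - q ^ 2))]

lemma cut_shift_real {p q g t : ℝ} (hp : 0 ≤ p) (hq : 0 ≤ q) (ht : 0 ≤ t)
    (h1 : p ≤ q + 2 * t) (h2 : q ≤ p + 2 * t) (h3 : p ^ 2 + q ^ 2 ≤ 2 * g ^ 2 + 2 * t ^ 2) :
    max 0 (1 - g ^ 2) ^ 2 - max 0 (1 - p ^ 2) * max 0 (1 - q ^ 2) ≤ 9 * t ^ 2 := by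
  have G0 := le_max_left 0 (1 - g ^ 2)
  have G1 : max 0 (1 - g ^ 2) ≤ 1 := max_le zero_le_one (by nlinarith [sq_nonneg g])
  have P0 := mul_nonneg (le_max_left 0 (1 - p ^ 2)) (le_max_left 0 (1 - q ^ 2))
  rcases le_total 1 t with h | h
  · nlinarith
  have ht2 : t ^ 2 ≤ t := by nlinarith
  have key : ∀ p q : ℝ, 0 ≤ q → 1 ≤ p → p ≤ q + 2 * t →
      p ^ 2 + q ^ 2 ≤ 2 * g ^ 2 + 2 * t ^ 2 → max 0 (1 - g ^ 2) ^ 2 ≤ 9 * t ^ 2 := by
    intro p q hq hp h1 h3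
    have : max 0 (1 - g ^ 2) ≤ 3 * t := by
      refine max_le (by linarith) ?_
      nlinarith [sq_nonneg (q - 1)]
    nlinarith
  rcases le_total 1 p with a | a
  · linarith [key p q hq a h1 h3]
  rcases le_total 1 q with b | b
  · linarith [key q p hp b h2 (by linarith)]
  rw [max_eq_right (by nlinarith : 0 ≤ 1 - p ^ 2), max_eq_right (by nlinarith : 0 ≤ 1 - q ^ 2)]
  have T0 : 0 ≤ 1 - (p ^ 2 + q ^ 2) / 2 := by nlinarith
  have T1 : 1 - (p ^ 2 + q ^ 2) / 2 ≤ 1 := by nlinarith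
  have G2 : max 0 (1 - g ^ 2) ≤ 1 - (p ^ 2 + q ^ 2) / 2 + t ^ 2 :=
    max_le (by positivity) (by linarith)
  have G3 := mul_self_le_mul_self G0 G2
  have e1 : (p - q) ^ 2 ≤ 4 * t ^ 2 := by nlinarith
  have e2 : (p + q) ^ 2 ≤ 4 := by nlinarith
  have e3 := mul_le_mul e1 e2 (sq_nonneg _) (by positivity)
  have e4 : t ^ 2 * t ^ 2 ≤ t ^ 2 := by nlinarith [sq_nonneg t]
  have e5 := mul_le_mul_of_nonneg_right T1 (sq_nonneg t)
  nlinarith

section
variable {E : Type} [NormedAddCommGroup E] [InnerProductSpace ℝ E]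

lemma cut_mid (x y : E) : cut ‖x‖ * cut ‖y‖ ≤ cut ‖(1 / 2 : ℝ) • (x + y)‖ ^ 2 := by
  refine cut_mid_real ?_
  rw [norm_smul, Real.norm_of_nonneg (by norm_num)]
  linarith [norm_add_le x y]

lemma exists_near (z : E) : ∃ P : E, ‖P‖ ≤ 1 ∧ ‖z - P‖ = max 0 (‖z‖ - 1) := by
  rcases le_or_gt ‖z‖ 1 with h | h
  · exact ⟨z, h, by rw [sub_self, norm_zero, max_eq_left (by linarith)]⟩
  · have h0 : 0 < ‖z‖ := by linarith
    refine ⟨‖z‖⁻¹ • z, ?_, ?_⟩
    · rw [norm_smul, norm_inv, norm_norm, inv_mul_cancel₀ h0.ne']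
    · have : z - ‖z‖⁻¹ • z = (1 - ‖z‖⁻¹) • z := by module
      have h1 : ‖z‖⁻¹ ≤ 1 := inv_le_one_of_one_le₀ h.le
      rw [this, norm_smul, Real.norm_of_nonneg (by linarith), max_eq_right (by linarith), sub_mul,
        inv_mul_cancel₀ h0.ne', one_mul]

lemma cut_shift (z h : E) : cut ‖z‖ ^ 2 - cut ‖z + h‖ * cut ‖z - h‖ ≤ 9 * ‖h‖ ^ 2 := by
  obtain ⟨P, hP, e⟩ := exists_near z
  have a1 : ∀ y : E, max 0 (‖y‖ - 1) ≤ ‖y - P‖ := fun y =>
    max_le (norm_nonneg _) (by linarith [norm_sub_norm_le y P])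
  have a2 : ∀ x y : E, ‖x‖ ≤ ‖y‖ + 2 * ‖h‖ → max 0 (‖x‖ - 1) ≤ max 0 (‖y‖ - 1) + 2 * ‖h‖ :=
    fun x y hxy => max_le (by positivity) (by linarith [le_max_right 0 (‖y‖ - 1)])
  have n2 : ‖h + h‖ ≤ 2 * ‖h‖ := by linarith [norm_add_le h h]
  refine cut_shift_real (le_max_left _ _) (le_max_left _ _) (norm_nonneg _) (a2 _ _ ?_)
    (a2 _ _ ?_) ?_
  · have := norm_add_le (z - h) (h + h)
    rw [show z - h + (h + h) = z + h by abel] at this
    linarith
  · have := norm_sub_le (z + h) (h + h)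
    rw [show z + h - (h + h) = z - h by abel] at this
    linarith
  · have b1 := mul_self_le_mul_self (le_max_left _ _) (a1 (z + h))
    have b2 := mul_self_le_mul_self (le_max_left _ _) (a1 (z - h))
    have b3 := parallelogram_law_with_norm ℝ (z - P) h
    rw [show z + h - P = z - P + h by abel] at b1
    rw [show z - h - P = z - P - h by abel] at b2
    rw [← e]
    nlinarith

end

end Vale.Agent.P262S
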