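import Vale.Agent.P262S.Gauss

/-! A density supported where finitely many linear maps are small, with large self-overlap. -/

namespace Vale.Agent.P262S
open MeasureTheory Finset

variable {N : ℕ}

/-- Linear maps used as constraints. -/
abbrev Op (N : ℕ) := (Fin N → ℝ) →ₗ[ℝ] EuclideanSpace ℝ (Fin N)

/-- Squared norm of a column. -/
noncomputable def col (L : Op N) (j : Fin N) : ℝ := ‖L (Pi.single j 1)‖ ^ 2

/-- Squared Hilbert-Schmidt norm. -/
noncomputable def hs (L : Op N) : ℝ := ∑ j, col L j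

lemma col_nonneg (L : Op N) (j : Fin N) : 0 ≤ col L j := sq_nonneg _

lemma hs_nonneg (L : Op N) : 0 ≤ hs L := sum_nonneg fun j _ => col_nonneg L j

lemma col_le_hs (L : Op N) (j : Fin N) : col L j ≤ hs L :=
  single_le_sum (f := col L) (fun j _ => col_nonneg L j) (mem_univ j)

lemma op_apply (L : Op N) (x : Fin N → ℝ) (l : Fin N) :
    L x l = ∑ j, L (Pi.single j 1) l * x j := by
  conv_lhs => rw [pi_eq_sum_univ' x]
  simp [map_sum, mul_comm]

lemma Good.tail {f : (Fin N → ℝ) → ℝ} (hf : Good f) (L : Op N) :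
    Integrable (fun x => f x * gau x * ‖L x‖ ^ 2) ∧
    ∫ x, f x * gau x * ‖L x‖ ^ 2 ≤ 1800 * hs L * ∫ x, f x * gau x := by
  have e : (fun x => f x * gau x * ‖L x‖ ^ 2) =
      fun x => ∑ l, f x * gau x * (∑ j, L (Pi.single j 1) l * x j) ^ 2 := by
    funext x
    rw [EuclideanSpace.real_norm_sq_eq, mul_sum]
    exact sum_congr rfl fun l _ => by rw [op_apply]
  have e2 : hs L = ∑ l, ∑ j, L (Pi.single j 1) l ^ 2 := by
    rw [sum_comm]
    exact sum_congr rfl fun j _ => EuclideanSpace.real_norm_sq_eq _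
  rw [e, integral_finsetSum _ fun l _ => (hf.var _).1, e2, mul_sum, sum_mul]
  exact ⟨integrable_finsetSum _ fun l _ => (hf.var _).1, sum_le_sum fun l _ => (hf.var _).2⟩

lemma good_cut (L : Op N) : Good fun x => cut ‖L x‖ where
  cont := continuous_cut.comp L.continuous_of_finiteDimensional.norm
  nn _ := cut_nonneg _
  le1 _ := cut_le_one _
  even x := by rw [map_neg, norm_neg]
  mid x y := by rw [map_smul, map_add]; exact cut_mid _ _

lemma prod_sub_prod_le {R : Type} [DecidableEq R] (S : Finset R) (a b : R → ℝ)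
    (hb : ∀ r, 0 ≤ b r) (hab : ∀ r, b r ≤ a r) :
    ∏ r ∈ S, a r - ∏ r ∈ S, b r ≤ ∑ r ∈ S, (a r - b r) * ∏ r' ∈ S.erase r, a r' := by
  induction S using Finset.induction_on with
  | empty => simp
  | insert c s hc ih =>
    rw [prod_insert hc, prod_insert hc, sum_insert hc, erase_insert hc]
    have e : ∑ r ∈ s, (a r - b r) * ∏ r' ∈ (insert c s).erase r, a r' =
        a c * ∑ r ∈ s, (a r - b r) * ∏ r' ∈ s.erase r, a r' := by
      rw [mul_sum]
      refine sum_congr rfl fun r hr => ?_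
      have hne : c ≠ r := fun h => hc (h ▸ hr)
      rw [erase_insert_of_ne hne, prod_insert fun h => hc (mem_of_mem_erase h)]
      ring
    have h1 : ∏ r ∈ s, b r ≤ ∏ r ∈ s, a r := prod_le_prod (fun r _ => hb r) fun r _ => hab r
    have h2 := mul_le_mul_of_nonneg_left ih ((hb c).trans (hab c))
    have h3 := mul_le_mul_of_nonneg_left h1 (sub_nonneg.2 (hab c))
    rw [e]
    nlinarith

lemma min_sq_ge (U W : ℝ) : 5 * (U * W) - 41 / 20 * (U ^ 2 + W ^ 2) ≤ min (U ^ 2) (W ^ 2) :=
  le_min (by nlinarith [sq_nonneg (61 * U - 50 * W)]) (by nlinarith [sq_nonneg (50 * U - 61 * W)])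

section
variable {R : Type} [Fintype R] [DecidableEq R] {L : R → Op N}

/-- The squared cutoff of one constraint. -/
noncomputable def sqc (L : Op N) (x : Fin N → ℝ) : ℝ := cut ‖L x‖ * cut ‖L x‖

lemma good_sqc (L : Op N) : Good (sqc L) := (good_cut L).mul (good_cut L)

lemma erase_le (hL : ∀ r, hs (L r) ≤ 1 / 3600) (r : R) :
    ∫ x, (∏ r' ∈ univ.erase r, sqc (L r') x) * gau x ≤
      2 * ∫ x, (∏ r', sqc (L r') x) * gau x := by
  have g1 := Good.prod (univ.erase r) fun r => good_sqc (L r)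
  have g2 := Good.prod univ fun r => good_sqc (L r)
  obtain ⟨a1, a2⟩ := g1.tail (L r)
  have h := integral_mono ((g1.int integrable_gau).sub a1) (g2.int integrable_gau) fun x => by
    simp only [Pi.sub_apply]
    rw [← mul_prod_erase univ (fun r' => sqc (L r') x) (mem_univ r)]
    have h0 := mul_nonneg (g1.nn x) (gau_pos x).le
    have h1 : 1 - ‖L r x‖ ^ 2 ≤ sqc (L r) x := by
      rcases le_total ‖L r x‖ 1 with h | h
      · rw [sqc, cut_eq_one h]; nlinarith [sq_nonneg ‖L r x‖]
      · nlinarith [(good_sqc (L r)).nn x]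
    nlinarith [mul_le_mul_of_nonneg_left h1 h0]
  simp only [Pi.sub_apply] at h
  rw [integral_sub (g1.int integrable_gau) a1] at h
  have h2 := mul_le_mul_of_nonneg_right (hL r)
    (integral_nonneg (μ := volume) fun x => mul_nonneg (g1.nn x) (gau_pos x).le)
  linarith

lemma affinity (hL : ∀ r, hs (L r) ≤ 1 / 3600) (j : Fin N) :
    (1 - 1166400 * ∑ r, col (L r) j * hs (L r)) * ∫ x, (∏ r, sqc (L r) x) * gau x ≤
      ∫ x, (∏ r, cut ‖L r (x + Pi.single j 3)‖ * cut ‖L r (x - Pi.single j 3)‖) * gau x := by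
  set h : Fin N → ℝ := Pi.single j 3 with hh
  have g1 := fun r => Good.prod (univ.erase r) fun r => good_sqc (L r)
  have g2 := Good.prod univ fun r => good_sqc (L r)
  have hn : ∀ r, ‖L r h‖ ^ 2 = 9 * col (L r) j := fun r => by
    have : h = (3 : ℝ) • Pi.single j 1 := by rw [hh, ← Pi.single_smul]; simp
    rw [this, map_smul, norm_smul, mul_pow, col]; norm_num
  have i1 : Integrable fun x =>
      (∏ r, cut ‖L r (x + h)‖ * cut ‖L r (x - h)‖) * gau x := by
    refine integrable_gau.bdd_mul (c := 1) (Continuous.aestronglyMeasurable ?_)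
      (Filter.Eventually.of_forall fun x => ?_)
    · exact continuous_finsetProd _ fun r _ =>
        ((good_cut (L r)).cont.comp (by fun_prop)).mul ((good_cut (L r)).cont.comp (by fun_prop))
    · rw [Real.norm_of_nonneg (prod_nonneg fun r _ => mul_nonneg (cut_nonneg _) (cut_nonneg _))]
      exact prod_le_one (fun r _ => mul_nonneg (cut_nonneg _) (cut_nonneg _)) fun r _ =>
        mul_le_one₀ (cut_le_one _) (cut_nonneg _) (cut_le_one _)
  have i2 : ∀ r, Integrable fun x => 324 * col (L r) j *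
      ((∏ r' ∈ univ.erase r, sqc (L r') x) * gau x * ‖L r x‖ ^ 2) := fun r =>
    ((g1 r).tail (L r)).1.const_mul _
  have i3 := integrable_finsetSum univ fun r _ => i2 r
  have key := integral_mono ((g2.int integrable_gau).sub i3) i1 fun x => by
    simp only [Pi.sub_apply]
    have b1 := prod_sub_prod_le univ (fun r => sqc (L r) x)
      (fun r => cut ‖L r (x + h)‖ * cut ‖L r (x - h)‖)
      (fun r => mul_nonneg (cut_nonneg _) (cut_nonneg _)) fun r => by
        have := (good_cut (L r)).mid (x + h) (x - h)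
        rw [show (1 / 2 : ℝ) • (x + h + (x - h)) = x by module, sq] at this
        exact this
    have b2 : ∑ r, (sqc (L r) x - cut ‖L r (x + h)‖ * cut ‖L r (x - h)‖) *
        ∏ r' ∈ univ.erase r, sqc (L r') x ≤ ∑ r, 324 * col (L r) j * ‖L r x‖ ^ 2 *
        ∏ r' ∈ univ.erase r, sqc (L r') x := by
      refine sum_le_sum fun r _ => mul_le_mul_of_nonneg_right ?_ ((g1 r).nn x)
      have c0 := col_nonneg (L r) j
      rcases le_total ‖L r x‖ (1 / 2) with c | c
      · have c1 : ‖L r h‖ ≤ 1 / 2 := by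
          have := (col_le_hs (L r) j).trans (hL r)
          nlinarith [hn r, norm_nonneg (L r h)]
        rw [sqc, map_add, map_sub, cut_eq_one (by linarith : ‖L r x‖ ≤ 1),
          cut_eq_one (by linarith [norm_add_le (L r x) (L r h)] : ‖L r x + L r h‖ ≤ 1),
          cut_eq_one (by linarith [norm_sub_le (L r x) (L r h)] : ‖L r x - L r h‖ ≤ 1)]
        have := mul_nonneg c0 (sq_nonneg ‖L r x‖)
        linarith
      · have c1 := cut_shift (L r x) (L r h)
        rw [hn, sq] at c1
        rw [sqc, map_add, map_sub]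
        have c2 : 1 / 4 ≤ ‖L r x‖ ^ 2 := by nlinarith
        nlinarith [mul_le_mul_of_nonneg_left c2 c0]
    have b3 := mul_le_mul_of_nonneg_right (b1.trans b2) (gau_pos x).le
    rw [sub_mul, sum_mul] at b3
    have b4 : ∑ r, 324 * col (L r) j * ‖L r x‖ ^ 2 * (∏ r' ∈ univ.erase r, sqc (L r') x) * gau x =
        ∑ r, 324 * col (L r) j *
          ((∏ r' ∈ univ.erase r, sqc (L r') x) * gau x * ‖L r x‖ ^ 2) :=
      sum_congr rfl fun r _ => by ring
    linarith
  simp only [Pi.sub_apply] at key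
  rw [integral_sub (g2.int integrable_gau) i3, integral_finsetSum _ fun r _ => i2 r] at key
  refine le_trans ?_ key
  rw [sub_mul, one_mul, mul_sum, sum_mul]
  refine sub_le_sub_left (sum_le_sum fun r _ => ?_) _
  rw [integral_const_mul]
  have d1 := ((g1 r).tail (L r)).2
  have d2 := mul_le_mul_of_nonneg_left (erase_le hL r) (hs_nonneg (L r))
  have d3 := mul_le_mul_of_nonneg_left (show ∫ x, (∏ r' ∈ univ.erase r, sqc (L r') x) * gau x *
    ‖L r x‖ ^ 2 ≤ 3600 * hs (L r) * ∫ x, (∏ r', sqc (L r') x) * gau x by linarith)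
    (col_nonneg (L r) j)
  linarith

theorem density (hL : ∀ r, hs (L r) ≤ 1 / 3600) : ∃ p : (Fin N → ℝ) → ℝ, Integrable p ∧
    (∀ x, 0 ≤ p x) ∧ ∫ x, p x = 1 ∧ (∀ x, p x ≠ 0 → ∀ r, ‖L r x‖ ≤ 2) ∧
    ∀ j, 1 - ∫ x, min (p x) (p (x + Pi.single j 6)) ≤
      1 / 8 + 6 * 10 ^ 6 * ∑ r, col (L r) j * hs (L r) := by
  have g2 := Good.prod univ fun r => good_sqc (L r)
  have i0 := g2.int integrable_gau
  set Z := ∫ x, (∏ r, sqc (L r) x) * gau x with hZ
  have Z0 : 0 < Z := by
    refine integral_pos_of_integrable_nonneg_nonzero (x := 0) (g2.cont.mul continuous_gau) i0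
      (fun x => mul_nonneg (g2.nn x) (gau_pos x).le) ?_
    simp [sqc, cut_eq_one, gau]
  have ip : Integrable fun x => Z⁻¹ * ((∏ r, sqc (L r) x) * gau x) := i0.const_mul _
  have p1 : ∫ x, Z⁻¹ * ((∏ r, sqc (L r) x) * gau x) = 1 := by
    rw [integral_const_mul, inv_mul_cancel₀ Z0.ne']
  refine ⟨fun x => Z⁻¹ * ((∏ r, sqc (L r) x) * gau x), ip,
    fun x => mul_nonneg (inv_nonneg.2 Z0.le) (mul_nonneg (g2.nn x) (gau_pos x).le), p1,
    fun x hx r => cut_le_two (left_ne_zero_of_mul (prod_ne_zero_iff.1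
      (left_ne_zero_of_mul (right_ne_zero_of_mul hx)) r (mem_univ r))), fun j => ?_⟩
  set h : Fin N → ℝ := Pi.single j 3 with hh
  set p : (Fin N → ℝ) → ℝ := fun x => Z⁻¹ * ((∏ r, sqc (L r) x) * gau x) with hp
  let ψ : (Fin N → ℝ) → ℝ := fun x => (∏ r, cut ‖L r x‖) * Real.exp (-(∑ i, x i ^ 2) / 3600)
  have e1 : ∀ x, p x = Z⁻¹ * ψ x ^ 2 := fun x => by
    simp only [hp, ψ, sqc, gau, prod_mul_distrib]
    rw [mul_pow, sq (Real.exp _), ← Real.exp_add, sq]
    congr 3; ring
  have e2 : ∀ x, ψ (x - h) * ψ (x + h) = Real.exp (-(1 / 200)) *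
      ((∏ r, cut ‖L r (x + h)‖ * cut ‖L r (x - h)‖) * gau x) := fun x => by
    have : ∑ i, (x - h) i ^ 2 + ∑ i, (x + h) i ^ 2 = 2 * ∑ i, x i ^ 2 + 2 * ∑ i, h i ^ 2 := by
      rw [mul_sum, mul_sum, ← sum_add_distrib, ← sum_add_distrib]
      exact sum_congr rfl fun i _ => by simp only [Pi.sub_apply, Pi.add_apply]; ring
    have h9 : ∑ i, h i ^ 2 = 9 := by
      rw [sum_eq_single j (fun i _ hi => by simp [hh, Pi.single_eq_of_ne hi]) (by simp)]
      simp [hh]; norm_num
    simp only [ψ, gau, prod_mul_distrib]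
    rw [mul_mul_mul_comm, ← Real.exp_add, mul_left_comm (Real.exp _), ← Real.exp_add, mul_comm
      (∏ r, cut ‖L r (x - h)‖)]
    congr 2; linarith
  have e3 : ∫ x, min (p x) (p (x + Pi.single j 6)) = ∫ x, min (p (x - h)) (p (x + h)) := by
    rw [← integral_sub_right_eq_self _ h]
    refine integral_congr_ae (Filter.Eventually.of_forall fun x => ?_)
    have : x - h + Pi.single j 6 = x + h := by
      rw [show (6 : ℝ) = 3 + 3 by norm_num, Pi.single_add, ← hh]; abel
    simp only [this]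
  have j1 : Integrable fun x => p (x - h) := ip.comp_sub_right h
  have j2 : Integrable fun x => p (x + h) := ip.comp_add_right h
  have j12 : Integrable fun x => p (x - h) + p (x + h) := j1.add j2
  have j3 : Integrable fun x => ψ (x - h) * ψ (x + h) := by
    refine (j12.const_mul Z).mono' (Continuous.aestronglyMeasurable ?_)
      (Filter.Eventually.of_forall fun x => ?_)
    · have : Continuous ψ :=
        (continuous_finsetProd _ fun r _ => (good_cut (L r)).cont).mul (by fun_prop)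
      exact (this.comp (by fun_prop)).mul (this.comp (by fun_prop))
    · rw [e1, e1, ← mul_add, mul_inv_cancel_left₀ Z0.ne', Real.norm_eq_abs, abs_le]
      constructor <;> nlinarith [sq_nonneg (ψ (x - h) - ψ (x + h)),
        sq_nonneg (ψ (x - h) + ψ (x + h))]
  have key := integral_mono ((j3.const_mul (5 * Z⁻¹)).sub (j12.const_mul (41 / 20))) (j1.inf j2)
    fun x => by
      simp only [Pi.sub_apply, Pi.inf_apply]
      rw [e1, e1, ← mul_min_of_nonneg _ _ (inv_nonneg.2 Z0.le)]
      have := mul_le_mul_of_nonneg_left (min_sq_ge (ψ (x - h)) (ψ (x + h))) (inv_nonneg.2 Z0.le)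
      linarith
  simp only [Pi.sub_apply, Pi.inf_apply] at key
  rw [integral_sub (j3.const_mul _) (j12.const_mul _), integral_const_mul, integral_const_mul,
    integral_add j1 j2, integral_sub_right_eq_self p h, integral_add_right_eq_self p h, p1] at key
  simp only [e2, integral_const_mul] at key
  rw [e3]
  have a1 := affinity hL j
  rw [← hZ, ← hh] at a1
  set I := ∫ x, (∏ r, cut ‖L r (x + h)‖ * cut ‖L r (x - h)‖) * gau x with hI
  set c := ∑ r, col (L r) j * hs (L r) with hc
  have c0 : 0 ≤ c := sum_nonneg fun r _ => mul_nonneg (col_nonneg _ _) (hs_nonneg _)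
  have I0 : 0 ≤ Z⁻¹ * I := mul_nonneg (inv_nonneg.2 Z0.le) (integral_nonneg fun x =>
    mul_nonneg (prod_nonneg fun r _ => mul_nonneg (cut_nonneg _) (cut_nonneg _)) (gau_pos x).le)
  have a2 : 1 - 1166400 * c ≤ Z⁻¹ * I := by
    rw [le_inv_mul_iff₀ Z0]; linarith
  have a3 : 1 - 1 / 200 ≤ Real.exp (-(1 / 200)) := by
    linarith [Real.add_one_le_exp (-(1 / 200) : ℝ)]
  have a4 := mul_le_mul_of_nonneg_right a3 I0
  nlinarith

end

end Vale.Agent.P262S
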