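import Vale.Agent.P262S.TKL

/-! From a density with large self-overlap to signs. -/

namespace Vale.Agent.P262S
open Function MeasureTheory Vale.Agent.P262

variable {N : ℕ}

/-- The lattice cell of a point. -/
noncomputable def cell (M : ℕ) (x : Fin N → ℝ) : Fin N → ℤ := fun i => ⌊(M : ℝ) * x i⌋

lemma meas_cell (M : ℕ) (z : Fin N → ℤ) : MeasurableSet {x : Fin N → ℝ | cell M x = z} := by
  have : Measurable (cell (N := N) M) :=
    measurable_pi_lambda _ fun i => ((measurable_pi_apply i).const_mul _).floor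
  exact this (measurableSet_singleton z)

/-- The mass of a cell. -/
noncomputable def mass (M : ℕ) (q : (Fin N → ℝ) → ℝ) (z : Fin N → ℤ) : ℝ :=
  ∫ x, {x : Fin N → ℝ | cell M x = z}.indicator q x

lemma mass_ne {M : ℕ} {q : (Fin N → ℝ) → ℝ} {z : Fin N → ℤ} (h : mass M q z ≠ 0) :
    ∃ x, cell M x = z ∧ q x ≠ 0 := by
  by_contra hc
  push Not at hc
  apply h
  have : ∀ x, {x : Fin N → ℝ | cell M x = z}.indicator q x = 0 := fun x => by
    by_cases hx : cell M x = z
    · rw [Set.indicator_of_mem (show x ∈ {x : Fin N → ℝ | cell M x = z} from hx), hc x hx]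
    · exact Set.indicator_of_notMem (show x ∉ {x : Fin N → ℝ | cell M x = z} from hx) _
  simp [mass, this]

lemma mass_sum (M : ℕ) {q : (Fin N → ℝ) → ℝ} (hq : Integrable q) {B : ℝ}
    (hB : ∀ x, q x ≠ 0 → ∀ i, |x i| ≤ B) :
    HasFiniteSupport (mass M q) ∧ ∑ᶠ z, mass M q z = ∫ x, q x := by
  classical
  set S : Finset (Fin N → ℤ) :=
    Fintype.piFinset fun _ => Finset.Icc ⌊(M : ℝ) * (-B)⌋ ⌊(M : ℝ) * B⌋ with hS
  have hm : ∀ x, q x ≠ 0 → cell M x ∈ S := fun x hx => by
    rw [hS, Fintype.mem_piFinset]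
    intro i
    have := abs_le.1 (hB x hx i)
    have h0 : (0 : ℝ) ≤ M := Nat.cast_nonneg M
    exact Finset.mem_Icc.2 ⟨Int.floor_mono (mul_le_mul_of_nonneg_left this.1 h0),
      Int.floor_mono (mul_le_mul_of_nonneg_left this.2 h0)⟩
  have hs : support (mass M q) ⊆ (S : Set (Fin N → ℤ)) := fun z hz => by
    obtain ⟨x, rfl, hx⟩ := mass_ne hz
    exact hm x hx
  refine ⟨S.finite_toSet.subset hs, ?_⟩
  rw [finsum_eq_sum_of_support_subset _ hs]
  simp only [mass]
  rw [← integral_finsetSum _ fun z _ => hq.indicator (meas_cell M z)]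
  refine integral_congr_ae (Filter.Eventually.of_forall fun x => ?_)
  simp only [Set.indicator_apply, Set.mem_ofPred_eq]
  rw [Finset.sum_ite_eq]
  split_ifs with h
  · rfl
  · by_contra hc
    exact h (hm x (Ne.symm hc))

lemma cell_shift (M : ℕ) (x : Fin N → ℝ) (j : Fin N) :
    cell M (x + Pi.single j 6) = 6 • (Pi.single j (M : ℤ) : Fin N → ℤ) + cell M x := by
  funext i
  simp only [cell, Pi.add_apply, Pi.smul_apply]
  by_cases h : i = j
  · subst h
    simp only [Pi.single_eq_same]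
    rw [show (M : ℝ) * (x i + 6) = M * x i + ((6 • (M : ℤ) : ℤ) : ℝ) by simp only [nsmul_eq_mul]; push_cast; ring,
      Int.floor_add_intCast, add_comm]
  · simp [Pi.single_eq_of_ne h]

lemma mass_shift (M : ℕ) (q : (Fin N → ℝ) → ℝ) (j : Fin N) (z : Fin N → ℤ) :
    mass M q (6 • (Pi.single j (M : ℤ) : Fin N → ℤ) + z) =
      mass M (fun x => q (x + Pi.single j 6)) z := by
  simp only [mass]
  rw [← integral_add_right_eq_self _ (Pi.single j (6 : ℝ) : Fin N → ℝ)]
  refine integral_congr_ae (Filter.Eventually.of_forall fun x => ?_)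
  simp only [Set.indicator_apply, Set.mem_ofPred_eq, cell_shift, add_right_inj]

theorem signs_of_density (M : ℕ) (hM : 0 < M) {p : (Fin N → ℝ) → ℝ} (hp : Integrable p)
    (p0 : ∀ x, 0 ≤ p x) (p1 : ∫ x, p x = 1) {B : ℝ} (hB : ∀ x, p x ≠ 0 → ∀ i, |x i| ≤ B)
    {K : Set (Fin N → ℝ)} (hK : Convex ℝ K)
    (hs : ∀ x, p x ≠ 0 → ∀ y : Fin N → ℝ, (∀ i, |y i - x i| ≤ 1 / M) → y ∈ K)
    (hov : ∀ j, 4 / 5 ≤ ∫ x, min (p x) (p (x + Pi.single j 6)))
    (o : Fin N → (Fin N → ℝ) → ℝ)
    (hc : ∀ i (t t' : Fin N → ℝ), (∀ j, j < i → t j = t' j) → o i t = o i t')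
    (hb : ∀ m ∈ K, ∀ t : Fin N → ℝ, m + t ∈ K → ∀ i, |o i t| ≤ 2 / 5) :
    ∃ t : Fin N → ℝ, (∀ i, t i - o i t = 1 ∨ t i - o i t = -1) ∧ ∃ m ∈ K, m + t ∈ K := by
  have hM' : (0 : ℝ) < M := by exact_mod_cast hM
  let ψ : (Fin N → ℤ) →+ (Fin N → ℝ) :=
    { toFun := fun z i => (z i : ℝ) / M
      map_zero' := by funext i; simp
      map_add' := fun a b => by funext i; simp [add_div] }
  have hψ : ∀ t : Fin N → ℝ, ∑ i, t i • ψ (Pi.single i (M : ℤ)) = t := by
    intro t
    funext l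
    rw [Finset.sum_apply, Finset.sum_eq_single l]
    · simp [ψ, hM'.ne']
    · intro i _ hi
      simp [ψ, Pi.single_eq_of_ne hi.symm]
    · simp
  obtain ⟨f1, s1⟩ := mass_sum M hp hB
  have P0 : ∀ z, 0 ≤ mass M p z := fun z =>
    integral_nonneg fun x => Set.indicator_nonneg (fun y _ => p0 y) x
  have hsK : ∀ z, mass M p z ≠ 0 → ψ z ∈ K := fun z hz => by
    obtain ⟨x, rfl, hx⟩ := mass_ne hz
    refine hs x hx _ fun i => ?_
    have h1 := Int.floor_le ((M : ℝ) * x i)
    have h2 := Int.lt_floor_add_one ((M : ℝ) * x i)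
    have e : ψ (cell M x) i - x i = (⌊(M : ℝ) * x i⌋ - M * x i) / M := by
      simp only [ψ, cell, AddMonoidHom.coe_mk, ZeroHom.coe_mk]
      field_simp
    rw [e, abs_div, abs_of_pos hM']
    refine div_le_div_of_nonneg_right ?_ hM'.le
    rw [abs_le]; constructor <;> linarith
  have hmean := hK.finsum_mem P0 (s1.trans p1) hsK
  obtain ⟨t, h1, h2⟩ := TKL N (Fin N → ℤ) (Fin N → ℝ) ψ ψ (mass M p)
    (fun i => Pi.single i (M : ℤ)) K o (fun g x => map_add ψ g x) f1 P0 (s1.trans p1)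
    (by
      intro j
      have hq : Integrable fun x : Fin N → ℝ => p (x + Pi.single j 6) := hp.comp_add_right _
      have hm : Integrable fun x : Fin N → ℝ => min (p x) (p (x + Pi.single j 6)) := hp.inf hq
      obtain ⟨f2, s2⟩ := mass_sum M hm (B := B) fun x hx => hB x fun h => hx (by
        rw [h]; exact min_eq_left (p0 _))
      refine (hov j).trans (s2.symm.trans_le ?_)
      refine finsum_le_finsum' f2 (f1.min (fs_shift f1 _)) fun z => ?_
      rw [vadd_eq_add, mass_shift]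
      exact le_min
        (integral_mono (hm.indicator (meas_cell M z)) (hp.indicator (meas_cell M z)) fun x =>
          Set.indicator_le_indicator (min_le_left _ _))
        (integral_mono (hm.indicator (meas_cell M z)) (hq.indicator (meas_cell M z)) fun x =>
          Set.indicator_le_indicator (min_le_right _ _)))
    hK hsK hc (fun t ht => hb _ hmean t (by rwa [hψ] at ht))
  exact ⟨t, h1, _, hmean, by rwa [hψ] at h2⟩

end Vale.Agent.P262S
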