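import Vale.Agent.P262S.Cut
import Vale.Agent.Lib.PL.Basic

/-! Variance domination for a Gaussian weight times an even log-concave function. -/

namespace Vale.Agent.P262S
open MeasureTheory Finset

variable {N : ℕ}

/-- The Gaussian weight of variance `900`. -/
noncomputable def gau (x : Fin N → ℝ) : ℝ := Real.exp (-(∑ i, x i ^ 2) / 1800)

lemma gau_pos (x : Fin N → ℝ) : 0 < gau x := Real.exp_pos _

lemma continuous_gau : Continuous (gau (N := N)) := by
  unfold gau; fun_prop

lemma integrable_gau : Integrable (gau (N := N)) := by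
  have h := Integrable.fintype_prod (ι := Fin N) (μ := fun _ => (volume : Measure ℝ))
    (f := fun _ t => Real.exp (-(1 / 1800) * t ^ 2))
    fun _ => integrable_exp_neg_mul_sq (by norm_num)
  refine h.congr (Filter.Eventually.of_forall fun x => ?_)
  simp only [gau]
  rw [← Real.exp_sum, ← mul_sum]
  congr 1; ring

lemma gau_neg (x : Fin N → ℝ) : gau (-x) = gau x := by simp [gau]

lemma gau_mid (x y : Fin N → ℝ) : gau x * gau y ≤ gau ((1 / 2 : ℝ) • (x + y)) ^ 2 := by
  simp only [gau]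
  rw [← Real.exp_add, sq (Real.exp _), ← Real.exp_add]
  refine Real.exp_le_exp.2 ?_
  have : ∑ i, ((1 / 2 : ℝ) • (x + y)) i ^ 2 * 2 ≤ ∑ i, (x i ^ 2 + y i ^ 2) :=
    sum_le_sum fun i _ => by
      simp only [Pi.smul_apply, Pi.add_apply, smul_eq_mul]
      nlinarith [sq_nonneg (x i - y i)]
  rw [← sum_mul, sum_add_distrib] at this
  linarith

/-- Continuous, even, midpoint log-concave functions with values in `[0, 1]`. -/
structure Good (f : (Fin N → ℝ) → ℝ) : Prop where
  cont : Continuous f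
  nn : ∀ x, 0 ≤ f x
  le1 : ∀ x, f x ≤ 1
  even : ∀ x, f (-x) = f x
  mid : ∀ x y, f x * f y ≤ f ((1 / 2 : ℝ) • (x + y)) ^ 2

lemma Good.mul {f g : (Fin N → ℝ) → ℝ} (hf : Good f) (hg : Good g) : Good fun x => f x * g x where
  cont := hf.cont.mul hg.cont
  nn x := mul_nonneg (hf.nn x) (hg.nn x)
  le1 x := mul_le_one₀ (hf.le1 x) (hg.nn x) (hg.le1 x)
  even x := by rw [hf.even, hg.even]
  mid x y := by
    rw [mul_pow, mul_mul_mul_comm]
    exact mul_le_mul (hf.mid x y) (hg.mid x y) (mul_nonneg (hg.nn x) (hg.nn y)) (sq_nonneg _)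

lemma Good.prod {R : Type} (S : Finset R) {f : R → (Fin N → ℝ) → ℝ} (hf : ∀ r, Good (f r)) :
    Good fun x => ∏ r ∈ S, f r x := by
  classical
  induction S using Finset.induction_on with
  | empty => exact ⟨by simpa using continuous_const, by simp, by simp, by simp, by simp⟩
  | insert a s ha ih => simpa only [prod_insert ha] using (hf a).mul ih

lemma Good.int {f g : (Fin N → ℝ) → ℝ} (hf : Good f) (hg : Integrable g) :
    Integrable fun x => f x * g x :=
  hg.bdd_mul (c := 1) hf.cont.aestronglyMeasurable (Filter.Eventually.of_forall fun x => by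
    rw [Real.norm_of_nonneg (hf.nn x)]; exact hf.le1 x)

lemma pl_int {f g h : (Fin N → ℝ) → ℝ} (cf : Continuous f) (cg : Continuous g)
    (ch : Continuous h) (jf : Integrable f) (jg : Integrable g) (jh : Integrable h)
    (f0 : ∀ x, 0 ≤ f x) (g0 : ∀ x, 0 ≤ g x) (h0 : ∀ x, 0 ≤ h x)
    (H : ∀ x y, f x * g y ≤ h ((1 / 2 : ℝ) • (x + y)) ^ 2) :
    (∫ x, f x) * (∫ x, g x) ≤ (∫ x, h x) ^ 2 := by
  have key := PL.pl_pi N (fun x => ENNReal.ofReal (f x)) (fun x => ENNReal.ofReal (g x))
    (fun x => ENNReal.ofReal (h x)) cf.measurable.ennreal_ofReal cg.measurable.ennreal_ofReal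
    ch.measurable.ennreal_ofReal fun x y => by
      rw [← ENNReal.ofReal_mul (f0 x), ← ENNReal.ofReal_pow (h0 _)]
      exact ENNReal.ofReal_le_ofReal (H x y)
  rw [← ofReal_integral_eq_lintegral_ofReal jf (Filter.Eventually.of_forall f0),
    ← ofReal_integral_eq_lintegral_ofReal jg (Filter.Eventually.of_forall g0),
    ← ofReal_integral_eq_lintegral_ofReal jh (Filter.Eventually.of_forall h0),
    ← ENNReal.ofReal_mul (integral_nonneg f0), ← ENNReal.ofReal_pow (integral_nonneg h0)] at key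
  exact (ENNReal.ofReal_le_ofReal_iff (sq_nonneg _)).1 key

lemma Good.anderson {f : (Fin N → ℝ) → ℝ} (hf : Good f) (u : Fin N → ℝ) :
    ∫ x, f x * gau (x - u) ≤ ∫ x, f x * gau x := by
  have h := pl_int (f := fun x => f x * gau (x - u)) (g := fun x => f x * gau (x + u))
    (h := fun x => f x * gau x) (hf.cont.mul (continuous_gau.comp (by fun_prop)))
    (hf.cont.mul (continuous_gau.comp (by fun_prop))) (hf.cont.mul continuous_gau)
    (hf.int (integrable_gau.comp_sub_right u)) (hf.int (integrable_gau.comp_add_right u))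
    (hf.int integrable_gau) (fun x => mul_nonneg (hf.nn x) (gau_pos _).le)
    (fun x => mul_nonneg (hf.nn x) (gau_pos _).le) (fun x => mul_nonneg (hf.nn x) (gau_pos _).le)
    fun x y => by
      have := gau_mid (x - u) (y + u)
      rw [show x - u + (y + u) = x + y by abel] at this
      rw [mul_pow, mul_mul_mul_comm]
      exact mul_le_mul (hf.mid x y) this (mul_pos (gau_pos _) (gau_pos _)).le (sq_nonneg _)
  have e : ∫ x, f x * gau (x + u) = ∫ x, f x * gau (x - u) := by
    rw [← integral_neg_eq_self]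
    refine integral_congr_ae (Filter.Eventually.of_forall fun x => ?_)
    simp only
    rw [hf.even, ← gau_neg, show -(-x + u) = x - u by abel]
  rw [e, ← sq] at h
  exact (pow_le_pow_iff_left₀ (integral_nonneg fun x => mul_nonneg (hf.nn x) (gau_pos _).le)
    (integral_nonneg fun x => mul_nonneg (hf.nn x) (gau_pos _).le) two_ne_zero).1 h

lemma gau_tilt (θ x : Fin N → ℝ) : gau x * Real.exp (∑ i, θ i * x i) =
    Real.exp (450 * ∑ i, θ i ^ 2) * gau (x - (900 : ℝ) • θ) := by
  simp only [gau]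
  rw [← Real.exp_add, ← Real.exp_add]
  congr 1
  have : ∑ i, (x - (900 : ℝ) • θ) i ^ 2 =
      ∑ i, x i ^ 2 - 1800 * ∑ i, θ i * x i + 810000 * ∑ i, θ i ^ 2 := by
    rw [mul_sum, mul_sum, ← sum_sub_distrib, ← sum_add_distrib]
    exact sum_congr rfl fun i _ => by
      simp only [Pi.sub_apply, Pi.smul_apply, smul_eq_mul]; ring
  rw [this]; ring

lemma Good.mgf {f : (Fin N → ℝ) → ℝ} (hf : Good f) (θ : Fin N → ℝ) :
    Integrable (fun x => f x * gau x * Real.exp (∑ i, θ i * x i)) ∧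
    ∫ x, f x * gau x * Real.exp (∑ i, θ i * x i) ≤
      Real.exp (450 * ∑ i, θ i ^ 2) * ∫ x, f x * gau x := by
  have e : (fun x => f x * gau x * Real.exp (∑ i, θ i * x i)) =
      fun x => Real.exp (450 * ∑ i, θ i ^ 2) * (f x * gau (x - (900 : ℝ) • θ)) := by
    funext x; rw [mul_assoc, gau_tilt]; ring
  rw [e, integral_const_mul]
  exact ⟨(hf.int (integrable_gau.comp_sub_right _)).const_mul _,
    mul_le_mul_of_nonneg_left (hf.anderson _) (Real.exp_pos _).le⟩

lemma sq_le_exp (t : ℝ) : t ^ 2 ≤ Real.exp t + Real.exp (-t) - 2 := by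
  have h1 : |t / 2| ≤ |Real.sinh (t / 2)| := by
    rw [Real.abs_sinh]; exact Real.self_le_sinh_iff.2 (abs_nonneg _)
  have h2 := sq_le_sq.2 h1
  rw [Real.sinh_eq] at h2
  have h3 : Real.exp t = Real.exp (t / 2) * Real.exp (t / 2) := by
    rw [← Real.exp_add]; congr 1; ring
  have h4 : Real.exp (-t) = Real.exp (-(t / 2)) * Real.exp (-(t / 2)) := by
    rw [← Real.exp_add]; congr 1; ring
  have h5 : Real.exp (t / 2) * Real.exp (-(t / 2)) = 1 := by
    rw [← Real.exp_add]; simp
  nlinarith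

lemma Good.var1 {f : (Fin N → ℝ) → ℝ} (hf : Good f) {θ : Fin N → ℝ}
    (hθ : 900 * ∑ i, θ i ^ 2 = 1) :
    Integrable (fun x => f x * gau x * (∑ i, θ i * x i) ^ 2) ∧
    ∫ x, f x * gau x * (∑ i, θ i * x i) ^ 2 ≤ 2 * ∫ x, f x * gau x := by
  obtain ⟨a1, a2⟩ := hf.mgf θ
  obtain ⟨b1, b2⟩ := hf.mgf (-θ)
  have c1 := hf.int integrable_gau
  have hn : ∀ x : Fin N → ℝ, ∑ i, (-θ) i * x i = -∑ i, θ i * x i := fun x => by simp
  simp only [hn] at b1 b2
  have hs : ∑ i, (-θ) i ^ 2 = ∑ i, θ i ^ 2 := by simp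
  rw [hs] at b2
  have he : Real.exp (450 * ∑ i, θ i ^ 2) ≤ 2 := by
    rw [show 450 * ∑ i, θ i ^ 2 = 1 / 2 by linarith]
    have h1 : Real.exp (1 / 2) * Real.exp (1 / 2) = Real.exp 1 := by
      rw [← Real.exp_add]; norm_num
    nlinarith [Real.exp_one_lt_d9, Real.exp_pos (1 / 2)]
  have d0 : Integrable fun x => f x * gau x * Real.exp (∑ i, θ i * x i) +
      f x * gau x * Real.exp (-∑ i, θ i * x i) := a1.add b1
  have d1 := d0.sub (c1.const_mul 2)
  have w0 : ∀ x, 0 ≤ f x * gau x := fun x => mul_nonneg (hf.nn x) (gau_pos x).le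
  have hle : ∀ x, f x * gau x * (∑ i, θ i * x i) ^ 2 ≤
      f x * gau x * Real.exp (∑ i, θ i * x i) + f x * gau x * Real.exp (-∑ i, θ i * x i)
        - 2 * (f x * gau x) := fun x => by
    have := mul_le_mul_of_nonneg_left (sq_le_exp (∑ i, θ i * x i)) (w0 x)
    linarith
  have i1 : Integrable (fun x => f x * gau x * (∑ i, θ i * x i) ^ 2) := by
    refine d1.mono' ((hf.cont.mul continuous_gau).mul (by fun_prop)).aestronglyMeasurable
      (Filter.Eventually.of_forall fun x => ?_)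
    rw [Real.norm_of_nonneg (mul_nonneg (w0 x) (sq_nonneg _))]
    exact hle x
  refine ⟨i1, ?_⟩
  have h2 := integral_mono i1 d1 hle
  simp only [Pi.sub_apply] at h2
  rw [integral_sub d0 (c1.const_mul 2), integral_add a1 b1, integral_const_mul] at h2
  have h3 := mul_le_mul_of_nonneg_right he (integral_nonneg (μ := volume) w0)
  linarith

lemma Good.var {f : (Fin N → ℝ) → ℝ} (hf : Good f) (θ : Fin N → ℝ) :
    Integrable (fun x => f x * gau x * (∑ i, θ i * x i) ^ 2) ∧
    ∫ x, f x * gau x * (∑ i, θ i * x i) ^ 2 ≤ 1800 * (∑ i, θ i ^ 2) * ∫ x, f x * gau x := by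
  rcases (sum_nonneg fun i _ => sq_nonneg (θ i) : 0 ≤ ∑ i, θ i ^ 2).eq_or_lt with h | h
  · have : ∀ i, θ i = 0 := fun i =>
      pow_eq_zero_iff two_ne_zero |>.1
        ((sum_eq_zero_iff_of_nonneg fun i _ => sq_nonneg (θ i)).1 h.symm i (mem_univ i))
    simp [this]
  set s := ∑ i, θ i ^ 2 with hs
  have h1 : 0 < √(900 * s) := Real.sqrt_pos.2 (by positivity)
  have h2 : √(900 * s) ^ 2 = 900 * s := Real.sq_sqrt (by positivity)
  obtain ⟨a1, a2⟩ := hf.var1 (θ := fun i => θ i / √(900 * s)) (by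
    simp only [div_pow, ← sum_div]
    rw [h2, ← hs]; field_simp)
  have e : (fun x => f x * gau x * (∑ i, θ i * x i) ^ 2) =
      fun x => 900 * s * (f x * gau x * (∑ i, θ i / √(900 * s) * x i) ^ 2) := by
    funext x
    simp only [div_mul_eq_mul_div, ← sum_div]
    rw [div_pow, h2]; field_simp
  rw [e, integral_const_mul]
  refine ⟨a1.const_mul _, ?_⟩
  have := mul_le_mul_of_nonneg_left a2 (show 0 ≤ 900 * s by positivity)
  linarith

end Vale.Agent.P262S
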