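import Vale.Agent.P262S.Band
import Vale.Agent.P262S.Disc

/-! A damped walk and the bound for signed prefix sums. -/

namespace Vale.Agent.P262S
open Finset

section
variable {E : Type} [NormedAddCommGroup E] [InnerProductSpace ℝ E]

/-- One damping step. -/
noncomputable def damp (v y : E) : E := y - (1 / 10 ^ 7 * inner ℝ v y : ℝ) • v

lemma damp_symm (v y φ : E) : inner ℝ (damp v y) φ = inner ℝ y (damp v φ) := by
  simp only [damp, inner_sub_left, inner_sub_right, inner_smul_left, inner_smul_right,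
    real_inner_comm y v, conj_trivial]
  ring

lemma damp_norm {v : E} (hv : ‖v‖ ≤ 1) (y : E) :
    ‖damp v y‖ ^ 2 + 1 / 10 ^ 7 * inner ℝ v y ^ 2 ≤ ‖y‖ ^ 2 := by
  rw [damp, norm_sub_sq_real, inner_smul_right, norm_smul, mul_pow, Real.norm_eq_abs, sq_abs,
    real_inner_comm v y]
  have h1 : ‖v‖ ^ 2 ≤ 1 := pow_le_one₀ (norm_nonneg _) hv
  nlinarith [mul_le_mul_of_nonneg_left h1 (sq_nonneg (1 / 10 ^ 7 * inner ℝ v y)),
    sq_nonneg (inner ℝ v y)]

/-- The response at time `t` to the input at time `j`. -/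
noncomputable def resp (v : ℕ → E) : ℕ → ℕ → E
  | 0, _ => 0
  | t + 1, j => damp (v t) (resp v t j) + if j = t then v t else 0

variable {v : ℕ → E}

lemma resp_zero {t j : ℕ} (h : t ≤ j) : resp v t j = 0 := by
  induction t with
  | zero => rfl
  | succ t ih => simp [resp, damp, ih (by omega), show j ≠ t by omega]

lemma resp_energy (hv : ∀ i, ‖v i‖ ≤ 1) (j t : ℕ) :
    ‖resp v t j‖ ^ 2 + 1 / 10 ^ 7 * ∑ s ∈ range t, inner ℝ (v s) (resp v s j) ^ 2 ≤ 1 := by
  induction t with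
  | zero => simp [resp]
  | succ t ih =>
    by_cases h : j = t
    · subst h
      rw [sum_eq_zero fun s hs => by
        rw [resp_zero (Nat.lt_succ_iff.1 (mem_range.1 hs))]; simp]
      simpa [resp, resp_zero (le_refl j), damp] using hv j
    · rw [sum_range_succ, resp, if_neg h, add_zero]
      linarith [damp_norm (hv t) (resp v t j)]

lemma resp_frame (hv : ∀ i, ‖v i‖ ≤ 1) (t : ℕ) (S : Finset ℕ) (φ : E) :
    ∑ j ∈ S, inner ℝ (resp v t j) φ ^ 2 ≤ 10 ^ 7 * ‖φ‖ ^ 2 := by
  induction t generalizing φ with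
  | zero => simp [resp]
  | succ t ih =>
    have e : ∀ j, inner ℝ (resp v (t + 1) j) φ ^ 2 = inner ℝ (resp v t j) (damp (v t) φ) ^ 2 +
        if j = t then inner ℝ (v t) φ ^ 2 else 0 := fun j => by
      by_cases h : j = t
      · subst h; simp [resp, resp_zero (le_refl j), damp]
      · simp [resp, h, damp_symm]
    simp only [e, sum_add_distrib, sum_ite_eq']
    have h1 := ih (damp (v t) φ)
    have h2 := damp_norm (hv t) φ
    split_ifs <;> nlinarith [sq_nonneg (inner ℝ (v t) φ)]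

lemma resp_trunc {s t : ℕ} (h : s ≤ t) (φ : E) :
    ∃ ψ : E, ∀ j, j < s → inner ℝ (resp v t j) φ = inner ℝ (resp v s j) ψ := by
  induction t, h using Nat.le_induction generalizing φ with
  | base => exact ⟨φ, fun _ _ => rfl⟩
  | succ t h ih =>
    obtain ⟨ψ, hψ⟩ := ih (damp (v t) φ)
    exact ⟨ψ, fun j hj => by
      rw [← hψ j hj, resp, if_neg (by omega), add_zero, damp_symm]⟩

/-- The state at time `t` as a linear function of the inputs. -/
noncomputable def walk (N : ℕ) (v : ℕ → E) (t : ℕ) : (Fin N → ℝ) →ₗ[ℝ] E :=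
  Fintype.linearCombination ℝ fun j : Fin N => resp v t j

variable {N : ℕ}

lemma walk_apply (t : ℕ) (x : Fin N → ℝ) : walk N v t x = ∑ j, x j • resp v t j := rfl

lemma walk_succ (i : Fin N) (x : Fin N → ℝ) : walk N v (i + 1) x =
    walk N v i x + (x i - 1 / 10 ^ 7 * inner ℝ (v i) (walk N v i x)) • v i := by
  simp only [walk_apply, resp, damp, smul_add, smul_sub, sum_add_distrib, sum_sub_distrib,
    Fin.val_inj, smul_ite, smul_zero, sum_ite_eq', mem_univ, if_true, inner_sum, inner_smul_right,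
    sub_smul, mul_sum, sum_smul, smul_smul, mul_left_comm (x _)]
  abel

/-- The analysis map at time `t`. -/
noncomputable def ana (N : ℕ) (v : ℕ → E) (t : ℕ) : E →ₗ[ℝ] EuclideanSpace ℝ (Fin N) where
  toFun φ := WithLp.toLp 2 fun j => inner ℝ (resp v t j) φ
  map_add' x y := by ext l; simp [inner_add_right]
  map_smul' c x := by ext l; simp [inner_smul_right]

lemma frame_fin (hv : ∀ i, ‖v i‖ ≤ 1) (t : ℕ) (φ : E) :
    ∑ j : Fin N, inner ℝ (resp v t j) φ ^ 2 ≤ 10 ^ 7 * ‖φ‖ ^ 2 := by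
  rw [← sum_range fun j => inner ℝ (resp v t j) φ ^ 2]
  exact resp_frame hv _ _ _

lemma walk_small (hv : ∀ i, ‖v i‖ ≤ 1) (t : ℕ) {x : Fin N → ℝ}
    (hx : ∀ i, |x i| ≤ 1 / ((N + 1 : ℕ) : ℝ)) : ‖walk N v t x‖ ≤ 1 := by
  have h1 : ∀ j, ‖resp v t j‖ ≤ 1 := fun j => by
    have := resp_energy hv j t
    have h0 : 0 ≤ ∑ s ∈ range t, inner ℝ (v s) (resp v s j) ^ 2 := sum_nonneg fun _ _ => sq_nonneg _
    nlinarith [norm_nonneg (resp v t j)]
  rw [walk_apply]
  refine (norm_sum_le _ _).trans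
    ((sum_le_sum fun j _ => (show _ ≤ 1 / ((N + 1 : ℕ) : ℝ) from ?_)).trans ?_)
  · rw [norm_smul, Real.norm_eq_abs]
    exact (mul_le_of_le_one_right (abs_nonneg _) (h1 j)).trans (hx j)
  · simp only [sum_const, card_univ, Fintype.card_fin, nsmul_eq_mul]
    rw [mul_one_div, div_le_one (by positivity)]
    simp

lemma ctl_walk [FiniteDimensional ℝ E] (hN : 0 < N) (hv : ∀ i, ‖v i‖ ≤ 1)
    (hd : 1 ≤ Module.finrank ℝ E) {a : Fin N → ℝ} (ha : ∀ j, 0 ≤ a j) (h1 : ∑ j, a j = 1) :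
    Ctl a (1 / 10 ^ 9) fun x => ∀ t, t ≤ N →
      ‖walk N v t x‖ ≤ 10 ^ 10 * √(Module.finrank ℝ E) := by
  have N0 : (0 : ℝ) < N := by exact_mod_cast hN
  refine ((band hN (fun t => LinearMap.range (ana N v t)) hd
    (fun t => LinearMap.finrank_range_le _) ?_ ?_ (a := fun j => a j + 1 / N)
    (fun j => by linarith [ha j]) ?_).weight fun j => by
      have : 0 ≤ 1 / (N : ℝ) := by positivity
      linarith).mono le_rfl fun x hx t ht => ?_
  · rintro t _ ⟨φ, rfl⟩ j hj
    simp [ana, resp_zero hj]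
  · rintro s t hst _ ⟨φ, rfl⟩
    obtain ⟨ψ, hψ⟩ := resp_trunc (v := v) hst φ
    refine ⟨ψ, ?_⟩
    ext j
    by_cases hj : j.val < s
    · simp [ana, hj, hψ j hj]
    · simp [ana, hj, resp_zero (not_lt.1 hj)]
  · simp [sum_add_distrib, h1, N0.ne']; norm_num
  · have h2 := hx t ht _ ⟨walk N v t x, rfl⟩
    have h3 := frame_fin (N := N) hv t (walk N v t x)
    have h4 : ∑ j, ana N v t (walk N v t x) j * x j = ‖walk N v t x‖ ^ 2 := by
      rw [← real_inner_self_eq_norm_sq]
      nth_rewrite 2 [walk_apply]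
      rw [sum_inner]
      exact sum_congr rfl fun j _ => by rw [real_inner_smul_left, mul_comm]; rfl
    rw [h4] at h2
    have h5 : (‖walk N v t x‖ ^ 2) ^ 2 ≤
        10 ^ 13 * Module.finrank ℝ E * (10 ^ 7 * ‖walk N v t x‖ ^ 2) :=
      h2.trans (mul_le_mul_of_nonneg_left h3 (by positivity))
    refine le_of_sq_le_sq ?_ (by positivity)
    rw [mul_pow, Real.sq_sqrt (by positivity)]
    by_contra hc
    have : (0 : ℝ) ≤ Module.finrank ℝ E := by positivity
    nlinarith

lemma ctl_off (hv : ∀ i, ‖v i‖ ≤ 1) {a : Fin N → ℝ} (ha : ∀ j, 0 ≤ a j) (h1 : ∑ j, a j = 1) :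
    Ctl a (1 / 10 ^ 9) fun x => ∀ i : Fin N,
      |1 / 10 ^ 7 * inner ℝ (v i) (walk N v i x)| ≤ 2 / 11 := by
  let L : Fin N → Op N := fun i =>
    opOf fun l j => if l = i then 11 / 10 ^ 7 * inner ℝ (v i) (resp v i j) else 0
  have hc : ∀ i j, col (L i) j = 121 / 10 ^ 14 * inner ℝ (resp v i j) (v i) ^ 2 := fun i j => by
    simp only [L, opOf_col, ite_pow, real_inner_comm (v i)]
    simp; ring
  have hh : ∀ i, hs (L i) ≤ 121 / 10 ^ 7 := fun i => by
    simp only [hs, hc, ← mul_sum]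
    have := frame_fin (N := N) hv i (v i)
    have h2 : ‖v i‖ ^ 2 ≤ 1 := pow_le_one₀ (norm_nonneg _) (hv i)
    linarith
  refine (Ctl.all univ fun i _ => Ctl.single (L i) ((hh i).trans (by norm_num))).mono ?_
    fun x hx i => ?_
  · have h2 : ∑ i, ∑ j, a j * col (L i) j ≤ 121 / 10 ^ 7 := by
      rw [sum_comm, ← one_mul (121 / 10 ^ 7 : ℝ), ← h1, sum_mul]
      refine sum_le_sum fun j _ => ?_
      rw [← mul_sum]
      refine mul_le_mul_of_nonneg_left ?_ (ha j)
      simp only [hc, ← mul_sum, real_inner_comm (v _)]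
      have := resp_energy hv j N
      rw [sum_range] at this
      nlinarith [sq_nonneg ‖resp v N j‖]
    refine (sum_le_sum fun i _ => mul_le_mul_of_nonneg_left (hh i)
      (sum_nonneg fun j _ => mul_nonneg (ha j) (col_nonneg _ _))).trans ?_
    rw [← sum_mul]
    linarith
  · have h2 := opOf_norm
      (fun l j => if l = i then 11 / 10 ^ 7 * inner ℝ (v i) (resp v i j) else 0) x
    have h3 : ‖L i x‖ ^ 2 = (11 * (1 / 10 ^ 7 * inner ℝ (v i) (walk N v i x))) ^ 2 := by
      rw [h2, sum_eq_single i (fun l _ hl => by simp [hl]) (by simp), walk_apply, inner_sum]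
      simp only [if_true, mul_sum, inner_smul_right]
      exact congrArg (· ^ 2) (sum_congr rfl fun j _ => by ring)
    have h4 := hx i (mem_univ i)
    have h5 := abs_le_of_sq_le_sq' (h3.symm.le.trans (pow_le_pow_left₀ (norm_nonneg _) h4 2))
      (by norm_num)
    exact abs_le.2 ⟨by linarith [h5.1], by linarith [h5.2]⟩

lemma ctl_box {a : Fin N → ℝ} (h1 : ∑ j, a j = 1) :
    Ctl a (1 / 10 ^ 9) fun x => ∀ i, |x i| ≤ 2 * (10 ^ 3 * ((N : ℝ) + 1)) := by
  set B : ℝ := 10 ^ 3 * ((N : ℝ) + 1) with hB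
  have B0 : 0 < B := by positivity
  let L : Op N := opOf fun l j => if l = j then 1 / B else 0
  have hc : ∀ j, col L j = 1 / B ^ 2 := fun j => by simp [L, opOf_col]
  have h2 : ((N : ℝ) + 1) * (1 / B ^ 2) ≤ 1 / 10 ^ 6 := by
    rw [mul_one_div, div_le_div_iff₀ (by positivity) (by positivity), hB]
    nlinarith [(Nat.cast_nonneg N : (0 : ℝ) ≤ N)]
  have h3 : 0 ≤ 1 / B ^ 2 := by positivity
  have h4 : 0 ≤ (N : ℝ) * (1 / B ^ 2) := by positivity
  have hh : hs L = N * (1 / B ^ 2) := by simp [hs, hc]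
  refine (Ctl.single L (by rw [hh]; linarith)).mono ?_ fun x hx i => ?_
  · simp only [cost, hc, hh, ← sum_mul, h1, one_mul]
    nlinarith
  · have h5 := (PiLp.norm_apply_le (L x) i).trans hx
    have : L x i = x i / B := by simp [L, opOf, inv_mul_eq_div]
    rw [this, Real.norm_eq_abs, abs_div, abs_of_pos B0, div_le_iff₀ B0] at h5
    exact h5

theorem signs_bound [FiniteDimensional ℝ E] (hN : 0 < N) (hv : ∀ i, ‖v i‖ ≤ 1)
    (hd : 1 ≤ Module.finrank ℝ E) : ∃ ε : ℕ → ℝ, (∀ i, ε i = 1 ∨ ε i = -1) ∧ ∀ k, k ≤ N →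
      ‖∑ i ∈ range k, ε i • v i‖ ≤ 2 * (10 ^ 10 * √(Module.finrank ℝ E) + 1) := by
  obtain ⟨p, ⟨p1, p2, p3, p4⟩, p5⟩ := mix hN fun a ha h1 =>
    ((ctl_walk hN hv hd ha h1).and ((ctl_off hv ha h1).and (ctl_box h1))).mono (by norm_num)
      fun _ h => h
  let o : Fin N → (Fin N → ℝ) →ₗ[ℝ] ℝ := fun i =>
    (1 / 10 ^ 7 : ℝ) • (innerₗ E (v i)).comp (walk N v i)
  have ho : ∀ i x, o i x = 1 / 10 ^ 7 * inner ℝ (v i) (walk N v i x) := fun i x => rfl
  set R : ℝ := 10 ^ 10 * √(Module.finrank ℝ E) + 1 with hR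
  let K : Set (Fin N → ℝ) := (⋂ t : Fin (N + 1), walk N v t ⁻¹' Metric.closedBall 0 R) ∩
    ⋂ i, o i ⁻¹' Metric.closedBall 0 (1 / 5)
  have hK : ∀ x, x ∈ K ↔ (∀ t : Fin (N + 1), ‖walk N v t x‖ ≤ R) ∧ ∀ i, |o i x| ≤ 1 / 5 :=
    fun x => by simp [K]
  obtain ⟨t, ht, m, hm, hmt⟩ := signs_of_density (N + 1) (Nat.succ_pos N) p1 p2 p3
    (fun x hx => (p4 x hx).2.2) (K := K)
    ((convex_iInter fun t => (convex_closedBall _ _).linear_preimage _).inter
      (convex_iInter fun t => (convex_closedBall _ _).linear_preimage _))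
    (fun x hx y hy => by
      have e : y = x + (y - x) := by abel
      have h1 := fun s => walk_small hv s (x := y - x) hy
      refine (hK y).2 ⟨fun s => ?_, fun i => ?_⟩
      · rw [e, map_add]
        exact (norm_add_le _ _).trans
          (add_le_add ((p4 x hx).1 s (Nat.lt_succ_iff.1 s.2)) (h1 s))
      · have h2 := (p4 x hx).2.1 i
        have h3 := (abs_real_inner_le_norm (v i) (walk N v i (y - x))).trans
          (mul_le_one₀ (hv i) (norm_nonneg _) (h1 i))
        rw [e, map_add, ho, ho]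
        refine (abs_add_le _ _).trans ?_
        rw [abs_mul (1 / 10 ^ 7) (inner ℝ (v i) (walk N v i (y - x))), 
          abs_of_pos (show (0 : ℝ) < 1 / 10 ^ 7 by norm_num)]
        linarith)
    p5 (fun i => o i)
    (fun i t t' h => by
      have : walk N v i t = walk N v i t' := by
        rw [walk_apply, walk_apply]
        refine sum_congr rfl fun j _ => ?_
        by_cases hj : j < i
        · rw [h j hj]
        · rw [resp_zero (not_lt.1 hj), smul_zero, smul_zero]
      rw [ho, ho, this])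
    (fun m hm t hmt i => by
      have h1 := ((hK _).1 hm).2 i
      have h2 := ((hK _).1 hmt).2 i
      rw [map_add] at h2
      rw [abs_le] at *
      constructor <;> linarith [h1.1, h1.2, h2.1, h2.2])
  refine ⟨fun i => if h : i < N then t ⟨i, h⟩ - o ⟨i, h⟩ t else 1, fun i => ?_, fun k hk => ?_⟩
  · by_cases h : i < N
    · simpa only [dif_pos h] using ht ⟨i, h⟩
    · simp [h]
  · have e : ∀ k, k ≤ N → ∑ i ∈ range k,
        (if h : i < N then t ⟨i, h⟩ - o ⟨i, h⟩ t else 1) • v i = walk N v k t := by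
      intro k hk
      induction k with
      | zero => simp [walk_apply, resp]
      | succ k ih =>
        rw [sum_range_succ, ih (by omega), dif_pos (show k < N by omega)]
        exact (walk_succ ⟨k, hk⟩ t).symm
    have h1 := ((hK _).1 hm).1 ⟨k, by omega⟩
    have h2 := ((hK _).1 hmt).1 ⟨k, by omega⟩
    have h3 := norm_sub_le (walk N v k (m + t)) (walk N v k m)
    rw [← map_sub, add_sub_cancel_left] at h3
    rw [e k hk]
    linarith

end

end Vale.Agent.P262S
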