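import Vale.Agent.P262S.Dens

/-! Systems of constraints of small weighted cost, and a minimax argument. -/

namespace Vale.Agent.P262S
open MeasureTheory Finset

variable {N : ℕ}

/-- The weighted cost of one constraint. -/
noncomputable def cost (a : Fin N → ℝ) (L : Op N) : ℝ := (∑ j, a j * col L j) * hs L

/-- `Φ` follows from a finite system of constraints of total cost at most `ε`. -/
def Ctl (a : Fin N → ℝ) (ε : ℝ) (Φ : (Fin N → ℝ) → Prop) : Prop :=
  ∃ (R : Type) (_ : Fintype R) (L : R → Op N), (∀ r, hs (L r) ≤ 1 / 3600) ∧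
    ∑ r, cost a (L r) ≤ ε ∧ ∀ x, (∀ r, ‖L r x‖ ≤ 2) → Φ x

variable {a : Fin N → ℝ}

lemma Ctl.mono {ε ε' : ℝ} {Φ Ψ : (Fin N → ℝ) → Prop} (h : Ctl a ε Φ) (he : ε ≤ ε')
    (hi : ∀ x, Φ x → Ψ x) : Ctl a ε' Ψ := by
  obtain ⟨R, i, L, h1, h2, h3⟩ := h
  exact ⟨R, i, L, h1, h2.trans he, fun x hx => hi x (h3 x hx)⟩

lemma Ctl.and {ε ε' : ℝ} {Φ Ψ : (Fin N → ℝ) → Prop} (h : Ctl a ε Φ) (h' : Ctl a ε' Ψ) :
    Ctl a (ε + ε') fun x => Φ x ∧ Ψ x := by
  obtain ⟨R, i, L, h1, h2, h3⟩ := h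
  obtain ⟨R', i', L', h1', h2', h3'⟩ := h'
  refine ⟨R ⊕ R', inferInstance, Sum.elim L L', ?_, ?_,
    fun x hx => ⟨h3 x fun r => hx (Sum.inl r), h3' x fun r => hx (Sum.inr r)⟩⟩
  · rintro (r | r)
    exacts [h1 r, h1' r]
  · rw [Fintype.sum_sum_type]
    exact add_le_add h2 h2'

lemma Ctl.triv : Ctl a 0 fun _ => True :=
  ⟨Empty, inferInstance, fun r => r.elim, fun r => r.elim, by simp, fun _ _ => trivial⟩

lemma Ctl.all {ι : Type} (S : Finset ι) {ε : ι → ℝ} {Φ : ι → (Fin N → ℝ) → Prop}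
    (h : ∀ i ∈ S, Ctl a (ε i) (Φ i)) : Ctl a (∑ i ∈ S, ε i) fun x => ∀ i ∈ S, Φ i x := by
  classical
  induction S using Finset.induction_on with
  | empty => exact Ctl.triv.mono (by simp) (by simp)
  | insert c s hc ih =>
    rw [sum_insert hc]
    refine ((h c (mem_insert_self _ _)).and
      (ih fun i hi => h i (mem_insert_of_mem hi))).mono le_rfl fun x hx i hi => ?_
    rcases mem_insert.1 hi with rfl | hi
    exacts [hx.1, hx.2 i hi]

lemma Ctl.single (L : Op N) (h : hs L ≤ 1 / 3600) : Ctl a (cost a L) fun x => ‖L x‖ ≤ 2 :=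
  ⟨Unit, inferInstance, fun _ => L, fun _ => h, by simp, fun _ hx => hx ()⟩

lemma Ctl.weight {b : Fin N → ℝ} {ε : ℝ} {Φ : (Fin N → ℝ) → Prop} (h : Ctl b ε Φ)
    (hab : ∀ j, a j ≤ b j) : Ctl a ε Φ := by
  obtain ⟨R, i, L, h1, h2, h3⟩ := h
  refine ⟨R, i, L, h1, le_trans (sum_le_sum fun r _ => ?_) h2, h3⟩
  exact mul_le_mul_of_nonneg_right
    (sum_le_sum fun j _ => mul_le_mul_of_nonneg_right (hab j) (col_nonneg _ _)) (hs_nonneg _)

/-- Densities supported where `Φ` holds. -/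
def Adm (Φ : (Fin N → ℝ) → Prop) (p : (Fin N → ℝ) → ℝ) : Prop :=
  Integrable p ∧ (∀ x, 0 ≤ p x) ∧ ∫ x, p x = 1 ∧ ∀ x, p x ≠ 0 → Φ x

/-- Self-overlap in direction `j`. -/
noncomputable def ov (p : (Fin N → ℝ) → ℝ) (j : Fin N) : ℝ :=
  ∫ x, min (p x) (p (x + Pi.single j 6))

lemma Ctl.dens {Φ : (Fin N → ℝ) → Prop} (h : Ctl a (1 / 10 ^ 8) Φ) (ha : ∀ j, 0 ≤ a j)
    (h1 : ∑ j, a j = 1) : ∃ p, Adm Φ p ∧ ∑ j, a j * (1 - ov p j) ≤ 37 / 200 := by
  classical
  obtain ⟨R, i, L, e1, e2, e3⟩ := h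
  obtain ⟨p, p1, p2, p3, p4, p5⟩ := density e1
  refine ⟨p, ⟨p1, p2, p3, fun x hx => e3 x (p4 x hx)⟩, ?_⟩
  refine (sum_le_sum fun j _ => mul_le_mul_of_nonneg_left (p5 j) (ha j)).trans ?_
  have : ∑ j, a j * (1 / 8 + 6 * 10 ^ 6 * ∑ r, col (L r) j * hs (L r)) =
      1 / 8 * ∑ j, a j + 6 * 10 ^ 6 * ∑ r, cost a (L r) := by
    simp only [cost, mul_sum, sum_mul, mul_add, sum_add_distrib]
    rw [sum_comm]
    congr 1
    · exact sum_congr rfl fun j _ => by ring
    · exact sum_congr rfl fun r _ => sum_congr rfl fun j _ => by ring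
  rw [this, h1]
  linarith

theorem mix (hN : 0 < N) {Φ : (Fin N → ℝ) → Prop}
    (h : ∀ a : Fin N → ℝ, (∀ j, 0 ≤ a j) → ∑ j, a j = 1 → Ctl a (1 / 10 ^ 8) Φ) :
    ∃ p, Adm Φ p ∧ ∀ j, 4 / 5 ≤ ov p j := by
  by_contra hc
  let A : Set (Fin N → ℝ) := {y | ∃ p, Adm Φ p ∧ ∀ j, 1 - ov p j ≤ y j}
  let s : Set (Fin N → ℝ) := Set.pi Set.univ fun _ => Set.Iio (1 / 5)
  have hA : Convex ℝ A := by
    rintro y ⟨p, ⟨p1, p2, p3, p4⟩, p5⟩ z ⟨q, ⟨q1, q2, q3, q4⟩, q5⟩ u w hu hw huw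
    have i1 : Integrable fun x => u * p x + w * q x := (p1.const_mul u).add (q1.const_mul w)
    refine ⟨fun x => u * p x + w * q x, ⟨i1,
      fun x => add_nonneg (mul_nonneg hu (p2 x)) (mul_nonneg hw (q2 x)), ?_, fun x hx => ?_⟩,
      fun j => ?_⟩
    · rw [integral_add (p1.const_mul u) (q1.const_mul w), integral_const_mul, integral_const_mul,
        p3, q3]
      linarith
    · by_cases hp : p x = 0
      · exact q4 x fun hq => hx (by simp [hp, hq])
      · exact p4 x hp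
    · have m1 : Integrable fun x : Fin N → ℝ => min (p x) (p (x + Pi.single j 6)) :=
        p1.inf (p1.comp_add_right _)
      have m2 : Integrable fun x : Fin N → ℝ => min (q x) (q (x + Pi.single j 6)) :=
        q1.inf (q1.comp_add_right _)
      have key : u * ov p j + w * ov q j ≤ ov (fun x => u * p x + w * q x) j := by
        simp only [ov]
        rw [← integral_const_mul, ← integral_const_mul,
          ← integral_add (m1.const_mul u) (m2.const_mul w)]
        refine integral_mono ((m1.const_mul u).add (m2.const_mul w))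
          (i1.inf (i1.comp_add_right _)) fun x => le_min ?_ ?_
        · exact add_le_add (mul_le_mul_of_nonneg_left (min_le_left _ _) hu)
            (mul_le_mul_of_nonneg_left (min_le_left _ _) hw)
        · exact add_le_add (mul_le_mul_of_nonneg_left (min_le_right _ _) hu)
            (mul_le_mul_of_nonneg_left (min_le_right _ _) hw)
      have a1 := mul_le_mul_of_nonneg_left (p5 j) hu
      have a2 := mul_le_mul_of_nonneg_left (q5 j) hw
      simp only [Pi.add_apply, Pi.smul_apply, smul_eq_mul]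
      linarith
  have hd : Disjoint s A := Set.disjoint_left.2 fun y hy ⟨p, hp, h2⟩ =>
    hc ⟨p, hp, fun j => by
      have := hy j (Set.mem_univ j)
      simp only [Set.mem_Iio] at this
      linarith [h2 j]⟩
  obtain ⟨f, u, f1, f2⟩ := geometric_hahn_banach_open
    (convex_pi fun _ _ => convex_Iio (1 / 5 : ℝ))
    (isOpen_set_pi Set.finite_univ fun _ _ => isOpen_Iio) hA hd
  let b : Fin N → ℝ := fun j => f (Pi.single j 1)
  have hf : ∀ y, f y = ∑ j, b j * y j := fun y => by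
    conv_lhs => rw [pi_eq_sum_univ' y]
    simp [map_sum, mul_comm, b]
  have u0 : 0 < u := by simpa using f1 0 fun j _ => by norm_num
  have b0 : ∀ j, 0 ≤ b j := fun j => by
    by_contra hb
    push Not at hb
    have := f1 ((u / b j) • Pi.single j 1) fun i _ => by
      have : u / b j < 0 := div_neg_of_pos_of_neg u0 hb
      by_cases hi : i = j
      · subst hi
        simp only [Pi.smul_apply, Pi.single_eq_same, smul_eq_mul, Set.mem_Iio]; linarith
      · simp [Pi.single_eq_of_ne hi]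
    rw [map_smul, smul_eq_mul, div_mul_cancel₀ _ hb.ne] at this
    exact lt_irrefl _ this
  rcases (sum_nonneg fun j _ => b0 j : 0 ≤ ∑ j, b j).eq_or_lt with hS | hS
  · have hN' : (0 : ℝ) < N := by exact_mod_cast hN
    obtain ⟨p, hp, -⟩ := (h (fun _ => 1 / N) (fun _ => by positivity)
      (by simp [hN'.ne'])).dens (fun _ => by positivity) (by simp [hN'.ne'])
    have := f2 (fun j => 1 - ov p j) ⟨p, hp, fun _ => le_rfl⟩
    rw [hf, sum_eq_zero fun j _ => by
      rw [(sum_eq_zero_iff_of_nonneg fun j _ => b0 j).1 hS.symm j (mem_univ j), zero_mul]] at this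
    linarith
  · have s1 : ∑ j, b j / ∑ j, b j = 1 := by rw [← sum_div, div_self hS.ne']
    obtain ⟨p, hp, h2⟩ := (h _ (fun j => div_nonneg (b0 j) hS.le) s1).dens
      (fun j => div_nonneg (b0 j) hS.le) s1
    have a1 := f2 (fun j => 1 - ov p j) ⟨p, hp, fun _ => le_rfl⟩
    have a2 := f1 (fun _ => 19 / 100) fun j _ => by norm_num
    rw [hf] at a1 a2
    rw [← sum_mul] at a2
    simp only [div_mul_eq_mul_div, ← sum_div] at h2
    rw [div_le_iff₀ hS] at h2
    linarith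

end Vale.Agent.P262S
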