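import Vale.Agent.P262S.Chain

/-! Weighted projections onto a nested family of subspaces. -/

namespace Vale.Agent.P262S
open Finset

variable {N : ℕ}

/-- An orthonormal basis of `V` that is also orthogonal for the weights `b`. -/
structure Bas (V : Submodule ℝ (EuclideanSpace ℝ (Fin N))) (b : Fin N → ℝ) {r : ℕ}
    (z : Fin r → EuclideanSpace ℝ (Fin N)) (g : Fin r → ℝ) : Prop where
  mem : ∀ i, z i ∈ V
  on : ∀ i l, ∑ j, z i j * z l j = if i = l then 1 else 0
  og : ∀ i l, ∑ j, b j * (z i j * z l j) = if i = l then g i else 0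
  span : ∀ x ∈ V, ∀ j, x j = ∑ i, (∑ l, z i l * x l) * z i j

lemma exists_bas (V : Submodule ℝ (EuclideanSpace ℝ (Fin N))) (b : Fin N → ℝ) :
    ∃ (z : Fin (Module.finrank ℝ V) → EuclideanSpace ℝ (Fin N)) (g : Fin _ → ℝ), Bas V b z g := by
  let D : EuclideanSpace ℝ (Fin N) →ₗ[ℝ] EuclideanSpace ℝ (Fin N) :=
    { toFun := fun x => WithLp.toLp 2 fun j => b j * x j
      map_add' := fun x y => by ext j; simp [mul_add]
      map_smul' := fun c x => by ext j; simp [mul_left_comm] }
  have ip : ∀ x y : EuclideanSpace ℝ (Fin N), inner ℝ x y = ∑ j, x j * y j := fun x y => by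
    simp [PiLp.inner_apply, mul_comm]
  have hD : D.IsSymmetric := fun x y => by
    simp only [ip, D, LinearMap.coe_mk, AddHom.coe_mk]
    exact sum_congr rfl fun j _ => by ring
  have hT := hD.adjoint_conj V.subtype
  let B := hT.eigenvectorBasis rfl
  have hon : ∀ i l, inner ℝ (B i) (B l) = if i = l then (1 : ℝ) else 0 :=
    orthonormal_iff_ite.1 B.orthonormal
  refine ⟨fun i => B i, hT.eigenvalues rfl, fun i => (B i).2, fun i l => ?_, fun i l => ?_,
    fun x hx j => ?_⟩
  · rw [← ip, ← hon]; rfl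
  · have h1 := congrArg (inner ℝ (B i)) (hT.apply_eigenvectorBasis rfl l)
    rw [LinearMap.comp_apply, LinearMap.adjoint_inner_right, inner_smul_right, hon, ip] at h1
    simp only [D, LinearMap.comp_apply, LinearMap.coe_mk, AddHom.coe_mk] at h1
    refine Eq.trans (sum_congr rfl fun j _ => ?_) (h1.trans ?_)
    · simp only [Submodule.subtype_apply]; ring
    · split_ifs with h
      · simp [h]
      · simp
  · have h1 := congrArg (fun y : V => (y : EuclideanSpace ℝ (Fin N)) j) (B.sum_repr' ⟨x, hx⟩)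
    simp only [Submodule.coe_inner, ip] at h1
    rw [← h1]
    simp

lemma quad_diag {r : ℕ} {z : Fin r → EuclideanSpace ℝ (Fin N)} {b : Fin N → ℝ} {g : Fin r → ℝ}
    (h : ∀ i l, ∑ j, b j * (z i j * z l j) = if i = l then g i else 0) (y : Fin r → ℝ) :
    ∑ j, b j * (∑ i, y i * z i j) ^ 2 = ∑ i, g i * y i ^ 2 := by
  have e : ∀ j, b j * (∑ i, y i * z i j) ^ 2 = ∑ i, ∑ l, y i * y l * (b j * (z i j * z l j)) :=
    fun j => by
      rw [sq, sum_mul_sum, mul_sum]
      refine sum_congr rfl fun i _ => ?_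
      rw [mul_sum]
      exact sum_congr rfl fun l _ => by ring
  simp only [e]
  rw [sum_comm]
  refine sum_congr rfl fun i _ => ?_
  rw [sum_comm]
  simp only [← mul_sum, h, mul_ite, mul_zero, sum_ite_eq, mem_univ, if_true]
  ring

/-- The linear map given by a matrix. -/
noncomputable def opOf (B : Fin N → Fin N → ℝ) : Op N where
  toFun x := WithLp.toLp 2 fun l => ∑ j, B l j * x j
  map_add' x y := by ext l; simp [mul_add, sum_add_distrib]
  map_smul' c x := by ext l; simp [mul_sum, mul_left_comm]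

lemma opOf_norm (B : Fin N → Fin N → ℝ) (x : Fin N → ℝ) :
    ‖opOf B x‖ ^ 2 = ∑ l, (∑ j, B l j * x j) ^ 2 := EuclideanSpace.real_norm_sq_eq _

lemma opOf_col (B : Fin N → Fin N → ℝ) (j : Fin N) : col (opOf B) j = ∑ l, B l j ^ 2 := by
  rw [col, opOf_norm]
  exact sum_congr rfl fun l _ => by simp [Pi.single_apply]

lemma opOf_sub (B B' : Fin N → Fin N → ℝ) :
    opOf B - opOf B' = opOf fun l j => B l j - B' l j := by
  ext x l
  simp [opOf, Pi.single_apply]

/-- A symmetric matrix with rows in `V` inverting the weights `w` on `V`. -/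
structure Rdg (V : Submodule ℝ (EuclideanSpace ℝ (Fin N))) (w : Fin N → ℝ)
    (M : Fin N → Fin N → ℝ) : Prop where
  mem : ∀ l, WithLp.toLp 2 (M l) ∈ V
  fix : ∀ x ∈ V, ∀ l, ∑ j, M l j * (w j * x j) = x l

/-- The ridge matrix attached to a basis. -/
noncomputable def rdg {r : ℕ} (z : Fin r → EuclideanSpace ℝ (Fin N)) (s : Fin r → ℝ)
    (l j : Fin N) : ℝ := ∑ i, z i l / (1 + s i) * z i j

lemma Bas.rdg {V : Submodule ℝ (EuclideanSpace ℝ (Fin N))} {b : Fin N → ℝ} {r : ℕ}
    {z : Fin r → EuclideanSpace ℝ (Fin N)} {g : Fin r → ℝ} (h : Bas V b z g) {q : ℝ}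
    (hg : ∀ i, 0 ≤ g i / q) : Rdg V (fun j => 1 + b j / q) (rdg z fun i => g i / q) := by
  refine ⟨fun l => ?_, fun x hx l => ?_⟩
  · have : WithLp.toLp 2 (P262S.rdg z (fun i => g i / q) l) =
        ∑ i, (z i l / (1 + g i / q)) • z i := by
      ext j; simp [P262S.rdg]
    rw [this]
    exact V.sum_mem fun i _ => V.smul_mem _ (h.mem i)
  · have e : ∀ i, ∑ j, z i j * ((1 + b j / q) * x j) = (1 + g i / q) * ∑ j, z i j * x j := by
      intro i
      set y : Fin r → ℝ := fun i => ∑ j, z i j * x j with hy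
      have e1 : ∑ j, b j * (z i j * x j) = g i * y i := by
        have : ∀ j, b j * (z i j * x j) = ∑ k, y k * (b j * (z i j * z k j)) := fun j => by
          rw [h.span x hx j, mul_sum, mul_sum]
          exact sum_congr rfl fun k _ => by ring
        simp only [this]
        rw [sum_comm]
        simp only [← mul_sum, h.og, mul_ite, mul_zero, sum_ite_eq, mem_univ, if_true]
        ring
      have e2 : ∑ j, z i j * ((1 + b j / q) * x j) =
          ∑ j, z i j * x j + (∑ j, b j * (z i j * x j)) / q := by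
        rw [sum_div, ← sum_add_distrib]
        exact sum_congr rfl fun j _ => by ring
      rw [e2, e1]; simp only [hy]; ring
    simp only [P262S.rdg, sum_mul]
    rw [sum_comm, h.span x hx l]
    refine sum_congr rfl fun i _ => ?_
    simp only [mul_assoc, ← mul_sum, e]
    have := hg i
    field_simp

/-- The clock of one row. -/
noncomputable def kap (w : Fin N → ℝ) (M : Fin N → Fin N → ℝ) (t : ℕ) (l : Fin N) : ℝ :=
  if l.val < t then 2 / w l - M l l else 0

lemma Rdg.diag {V : Submodule ℝ (EuclideanSpace ℝ (Fin N))} {w : Fin N → ℝ}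
    {M : Fin N → Fin N → ℝ} (h : Rdg V w M) (l : Fin N) : ∑ j, w j * M l j ^ 2 = M l l :=
  Eq.trans (sum_congr rfl fun j _ => by ring) (h.fix _ (h.mem l) l)

lemma Rdg.diag_le {V : Submodule ℝ (EuclideanSpace ℝ (Fin N))} {w : Fin N → ℝ}
    {M : Fin N → Fin N → ℝ} (h : Rdg V w M) (hw : ∀ j, 0 < w j) (l : Fin N) :
    0 ≤ M l l ∧ M l l ≤ 1 / w l := by
  have h0 : ∀ j ∈ univ, 0 ≤ w j * M l j ^ 2 := fun j _ => mul_nonneg (hw j).le (sq_nonneg _)
  have h1 := single_le_sum h0 (mem_univ l)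
  have h2 := sum_nonneg h0
  rw [h.diag] at h1 h2
  refine ⟨h2, ?_⟩
  rw [le_div_iff₀ (hw l)]
  by_contra hc
  have h3 := hw l
  have : 0 < M l l := by
    by_contra h4
    nlinarith
  nlinarith

lemma row_le {V V' : Submodule ℝ (EuclideanSpace ℝ (Fin N))} {w : Fin N → ℝ}
    {M M' : Fin N → Fin N → ℝ} (h : Rdg V w M) (h' : Rdg V' w M') (hw : ∀ j, 0 < w j) {s t : ℕ}
    (hst : s ≤ t) (hs : ∀ x ∈ V, ∀ j : Fin N, s ≤ j.val → x j = 0)
    (ht : ∀ x ∈ V', ∀ j : Fin N, t ≤ j.val → x j = 0)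
    (htr : ∀ x ∈ V', WithLp.toLp 2 (fun j : Fin N => if j.val < s then x j else 0) ∈ V)
    (l : Fin N) : ∑ j, w j * (M' l j - M l j) ^ 2 ≤ kap w M' t l - kap w M s l := by
  have e1 : ∑ j, M l j * (w j * M' l j) = if l.val < s then M' l l else 0 := by
    refine Eq.trans (sum_congr rfl fun j _ => ?_) (h.fix _ (htr _ (h'.mem l)) l)
    by_cases hj : j.val < s
    · simp [hj]
    · have : M l j = 0 := hs _ (h.mem l) j (not_lt.1 hj)
      simp [this]
  have e2 : ∑ j, w j * (M' l j - M l j) ^ 2 = ∑ j, w j * M' l j ^ 2 + ∑ j, w j * M l j ^ 2 -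
      2 * ∑ j, M l j * (w j * M' l j) := by
    rw [mul_sum, ← sum_add_distrib, ← sum_sub_distrib]
    exact sum_congr rfl fun j _ => by ring
  rw [e2, e1, h.diag, h'.diag, kap, kap]
  by_cases h1 : l.val < s
  · rw [if_pos h1, if_pos h1, if_pos (h1.trans_le hst)]; linarith
  · have a1 : M l l = 0 := hs _ (h.mem l) l (not_lt.1 h1)
    rw [if_neg h1, if_neg h1, a1]
    split_ifs with h2
    · have := (h'.diag_le hw l).2
      have e : 2 / w l = 2 * (1 / w l) := by ring
      linarith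
    · have a2 : M' l l = 0 := ht _ (h'.mem l) l (not_lt.1 h2)
      rw [a2]; norm_num

end Vale.Agent.P262S
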