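import Vale.Agent.P262.KL

/-! A sign-choosing lemma with causal offsets. -/

namespace Vale.Agent.P262S
open Function Vale.Agent.P262

lemma liftSet_seg {E : Type} [AddCommGroup E] [Module ℝ E] {K : Set E} (hK : Convex ℝ K)
    {z u : E} {β : ℝ} (hβ : 2 / 5 ≤ β) (h : (z, β) ∈ liftSet K ((3 : ℝ) • u)) {o : ℝ}
    (ho : |o| ≤ 2 / 5) : ∃ e : ℝ, (e - o = 1 ∨ e - o = -1) ∧ z + e • u ∈ K := by
  obtain ⟨a, ha, h1, h2⟩ := h
  simp only at ha h1 h2
  have ha' := abs_le.1 ha
  have ho' := abs_le.1 ho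
  rcases le_total (o / 3) a with h0 | h0
  · refine ⟨o + 1, Or.inl (by ring), ?_⟩
    have := seg_mem hK h2 h1 (c := (o + 1) / 3) (by linarith) (by linarith) (by linarith)
    rwa [smul_smul, show ((o + 1) / 3 : ℝ) * 3 = o + 1 by ring] at this
  · refine ⟨o - 1, Or.inr (by ring), ?_⟩
    have := seg_mem hK h2 h1 (c := (o - 1) / 3) (by linarith) (by linarith) (by linarith)
    rwa [smul_smul, show ((o - 1) / 3 : ℝ) * 3 = o - 1 by ring] at this

theorem TKL {G : Type} [AddCommGroup G] (n : ℕ) : ∀ (X : Type) [AddAction G X] (E : Type)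
    [AddCommGroup E] [Module ℝ E] (ψ : G →+ E) (φ : X → E) (P : X → ℝ) (v : Fin n → G)
    (K : Set E) (o : Fin n → (Fin n → ℝ) → ℝ), (∀ (g : G) x, φ (g +ᵥ x) = ψ g + φ x) → HasFiniteSupport P → (∀ x, 0 ≤ P x) →
    ∑ᶠ x, P x = 1 → (∀ i, 4 / 5 ≤ ∑ᶠ x, min (P x) (P ((6 • v i) +ᵥ x))) → Convex ℝ K →
    (∀ x, P x ≠ 0 → φ x ∈ K) →
    (∀ i (t t' : Fin n → ℝ), (∀ j, j < i → t j = t' j) → o i t = o i t') →
    (∀ t : Fin n → ℝ, (∑ᶠ x, P x • φ x) + ∑ i, t i • ψ (v i) ∈ K → ∀ i, |o i t| ≤ 2 / 5) →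
    ∃ ε : Fin n → ℝ, (∀ i, ε i - o i ε = 1 ∨ ε i - o i ε = -1) ∧
      (∑ᶠ x, P x • φ x) + ∑ i, ε i • ψ (v i) ∈ K := by
  induction n with
  | zero =>
    intro X _ E _ _ ψ φ P v K o _ _ h0 h1 _ hK hs _ _
    refine ⟨fun _ => 1, fun i => i.elim0, ?_⟩
    simpa using hK.finsum_mem h0 h1 hs
  | succ n ih =>
    intro X _ E _ _ ψ φ P v K o hφ hf h0 h1 hov hK hs hc hb
    set w : G := 3 • v (Fin.last n) with hw
    let A : X → ℝ := fun x => P (w +ᵥ x)
    let B : X → ℝ := fun x => P ((-w) +ᵥ x)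
    have fA : HasFiniteSupport A := fs_shift hf w
    have fB : HasFiniteSupport B := fs_shift hf (-w)
    let P' : X ⊕ X → ℝ := Sum.elim (fun x => max (A x) (B x) / 2) (fun x => min (A x) (B x) / 2)
    let φ' : X ⊕ X → E × ℝ := Sum.elim (fun x => (φ x, 0)) (fun x => (φ x, 1))
    let ψ' : G →+ E × ℝ := (AddMonoidHom.inl E ℝ).comp ψ
    have f1 : HasFiniteSupport fun x => max (A x) (B x) / 2 := by
      simp only [div_eq_mul_inv]; exact (fA.max fB).mul_left _
    have f2 : HasFiniteSupport fun x => min (A x) (B x) / 2 := by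
      simp only [div_eq_mul_inv]; exact (fA.min fB).mul_left _
    have sA : ∑ᶠ x, A x = 1 := (finsum_shift P w).trans h1
    have sB : ∑ᶠ x, B x = 1 := (finsum_shift P (-w)).trans h1
    have hmm : ∀ x, max (A x) (B x) / 2 + min (A x) (B x) / 2 = (A x + B x) * 2⁻¹ := by
      intro x; have := max_add_min (A x) (B x); linarith
    have hψw : ψ w = (3 : ℝ) • ψ (v (Fin.last n)) := by
      rw [hw, map_nsmul, ← Nat.cast_smul_eq_nsmul ℝ]; norm_num
    set β : ℝ := ∑ᶠ x, min (A x) (B x) / 2 with hβ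
    have hβ3 : 2 / 5 ≤ β := by
      have e : ∑ᶠ x, min (A x) (B x) = ∑ᶠ x, min (P x) (P ((6 • v (Fin.last n)) +ᵥ x)) := by
        rw [← finsum_shift (fun x => min (P x) (P ((6 • v (Fin.last n)) +ᵥ x))) (-w)]
        refine finsum_congr fun x => ?_
        rw [min_comm, vadd_vadd, show 6 • v (Fin.last n) + -w = w by rw [hw]; abel]
      have := hov (Fin.last n)
      rw [hβ]; simp only [div_eq_mul_inv]; rw [← finsum_mul, e]; linarith
    have hmean : ∑ᶠ z, P' z • φ' z = (∑ᶠ x, P x • φ x, β) := by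
      have k1 : HasFiniteSupport fun x => P' (Sum.inl x) • φ' (Sum.inl x) := f1.smul_left _
      have k2 : HasFiniteSupport fun x => P' (Sum.inr x) • φ' (Sum.inr x) := f2.smul_left _
      have k3 : HasFiniteSupport fun x => P' (Sum.inl x) • φ' (Sum.inl x) +
          P' (Sum.inr x) • φ' (Sum.inr x) := k1.add k2
      rw [finsum_sumType _ k1 k2, ← finsum_add_distrib k1 k2]
      refine Prod.ext ?_ ?_
      · rw [← AddMonoidHom.coe_fst, AddMonoidHom.map_finsum _ k3]
        simp only [P', φ', Sum.elim_inl, Sum.elim_inr, AddMonoidHom.coe_fst, Prod.fst_add,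
          Prod.smul_fst, ← add_smul, hmm]
        have mS : ∀ g : G, ∑ᶠ x, P (g +ᵥ x) • φ x = ∑ᶠ x, P x • φ x - ψ g := by
          intro g
          have fg := fs_shift hf g
          have q1 : HasFiniteSupport fun x => P (g +ᵥ x) • ψ g := fg.smul_left _
          have q2 : HasFiniteSupport fun x => P (g +ᵥ x) • φ x := fg.smul_left _
          rw [← finsum_shift (fun x => P x • φ x) g]
          simp only [hφ, smul_add]
          rw [finsum_add_distrib q1 q2, ← finsum_smul' fg, finsum_shift P g, h1]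
          simp
        have : ∀ x, ((A x + B x) * 2⁻¹) • φ x = (2⁻¹ : ℝ) • (A x • φ x + B x • φ x) := by
          intro x; module
        simp only [this]
        have q1 : HasFiniteSupport fun x => A x • φ x := fA.smul_left _
        have q2 : HasFiniteSupport fun x => B x • φ x := fB.smul_left _
        have k4 : HasFiniteSupport fun x => A x • φ x + B x • φ x := q1.add q2
        rw [← smul_finsum' _ k4, finsum_add_distrib q1 q2, mS w, mS (-w), map_neg]
        module
      · rw [← AddMonoidHom.coe_snd, AddMonoidHom.map_finsum _ k3]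
        simp [P', φ', hβ]
    have hsum : ∀ ε : Fin n → ℝ, ∑ i, ε i • ψ' (v i.castSucc) =
        (∑ i, ε i • ψ (v i.castSucc), (0 : ℝ)) := by
      intro ε
      refine Prod.ext ?_ ?_
      · simp [Prod.fst_sum, ψ']
      · simp [Prod.snd_sum, ψ']
    have hsn : ∀ (ε : Fin n → ℝ) (e : ℝ), ∑ i, (Fin.snoc ε e : Fin (n + 1) → ℝ) i • ψ (v i) =
        ∑ i, ε i • ψ (v i.castSucc) + e • ψ (v (Fin.last n)) := by
      intro ε e
      rw [Fin.sum_univ_castSucc]; simp
    have hcs : ∀ (ε : Fin n → ℝ) (e e' : ℝ) (i : Fin (n + 1)),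
        o i (Fin.snoc ε e) = o i (Fin.snoc ε e') := by
      intro ε e e' i
      refine hc i _ _ fun j hj => ?_
      obtain ⟨j', rfl⟩ := Fin.exists_castSucc_eq.2 (ne_of_lt (lt_of_lt_of_le hj (Fin.le_last i)))
      simp
    have hb' : ∀ ε : Fin n → ℝ, (∑ᶠ z, P' z • φ' z) + ∑ i, ε i • ψ' (v i.castSucc) ∈
        liftSet K (ψ w) → ∀ i, |o i (Fin.snoc ε 0)| ≤ 2 / 5 := by
      intro ε hmem i
      rw [hmean, hsum, Prod.mk_add_mk, add_zero, hψw] at hmem
      obtain ⟨e, -, hK'⟩ := liftSet_seg hK hβ3 hmem (o := 0) (by norm_num)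
      rw [hcs ε 0 e]
      exact hb _ (by rw [hsn, ← add_assoc]; exact hK') i
    obtain ⟨ε, hε, hmem⟩ := ih (X ⊕ X) (E × ℝ) ψ' φ' P' (fun i => v i.castSucc)
      (liftSet K (ψ w)) (fun i ε => o i.castSucc (Fin.snoc ε 0))
      (by
        rintro g (x | x)
        · simp [φ', ψ', hφ]
        · simp [φ', ψ', hφ])
      (fs_sumType _ f1 f2)
      (by
        rintro (x | x)
        · exact div_nonneg (le_max_of_le_left (h0 _)) (by norm_num)
        · exact div_nonneg (le_min (h0 _) (h0 _)) (by norm_num))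
      (by
        rw [finsum_sumType _ f1 f2]
        simp only [P', Sum.elim_inl, Sum.elim_inr]
        rw [← finsum_add_distrib f1 f2]
        simp only [hmm]
        rw [← finsum_mul, finsum_add_distrib fA fB, sA, sB]; norm_num)
      (by
        intro i
        set u : G := 6 • v i.castSucc with hu
        have g1 := f1.min (fs_shift f1 u)
        have g2 := f2.min (fs_shift f2 u)
        have g3 := fA.min (fs_shift fA u)
        have g4 := fB.min (fs_shift fB u)
        rw [finsum_sumType _ g1 g2]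
        simp only [P', Sum.vadd_inl, Sum.vadd_inr, Sum.elim_inl, Sum.elim_inr]
        rw [← finsum_add_distrib g1 g2]
        have e3 : ∑ᶠ x, min (A x) (A (u +ᵥ x)) = ∑ᶠ x, min (P x) (P (u +ᵥ x)) := by
          rw [← finsum_shift (fun x => min (P x) (P (u +ᵥ x))) w]
          simp only [A, vadd_comm u w]
        have e4 : ∑ᶠ x, min (B x) (B (u +ᵥ x)) = ∑ᶠ x, min (P x) (P (u +ᵥ x)) := by
          rw [← finsum_shift (fun x => min (P x) (P (u +ᵥ x))) (-w)]
          simp only [B, vadd_comm u (-w)]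
        have hle : ∑ᶠ x, (min (A x) (A (u +ᵥ x)) + min (B x) (B (u +ᵥ x))) * 2⁻¹ ≤
            ∑ᶠ x, (min (max (A x) (B x) / 2) (max (A (u +ᵥ x)) (B (u +ᵥ x)) / 2) +
              min (min (A x) (B x) / 2) (min (A (u +ᵥ x)) (B (u +ᵥ x)) / 2)) := by
          refine finsum_le_finsum' ((g3.add g4).mul_left _) (g1.add g2) fun x => ?_
          have := min_sort (A x) (B x) (A (u +ᵥ x)) (B (u +ᵥ x))
          simp only [min_div_div_right (show (0 : ℝ) ≤ 2 by norm_num)]
          linarith
        rw [← finsum_mul, finsum_add_distrib g3 g4, e3, e4] at hle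
        have := hov i.castSucc
        linarith)
      (convex_liftSet hK _)
      (by
        rintro (x | x) hx
        · by_cases hA : A x = 0
          · have hB : B x ≠ 0 := by
              intro hB; apply hx; simp [P', hA, hB]
            have := hs _ hB
            rw [hφ, map_neg] at this
            refine ⟨-1, by simp [φ'], ?_, ?_⟩ <;> simpa [φ', add_comm] using this
          · have := hs _ hA
            rw [hφ] at this
            refine ⟨1, by simp [φ'], ?_, ?_⟩ <;> simpa [φ', add_comm] using this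
        · have hA : A x ≠ 0 := by
            intro hA; apply hx
            simp [P', hA, min_eq_left (show (0 : ℝ) ≤ B x from h0 _)]
          have hB : B x ≠ 0 := by
            intro hB; apply hx
            simp [P', hB, min_eq_right (show (0 : ℝ) ≤ A x from h0 _)]
          have h2 := hs _ hA
          have h3 := hs _ hB
          rw [hφ] at h2 h3
          rw [map_neg] at h3
          refine ⟨0, by simp [φ'], ?_, ?_⟩
          · simpa [φ', add_comm] using h2
          · simpa [φ', add_comm] using h3)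
      (by
        intro i t t' h
        refine hc _ _ _ fun j hj => ?_
        obtain ⟨j', rfl⟩ := Fin.exists_castSucc_eq.2
          (ne_of_lt (lt_trans hj (Fin.castSucc_lt_last i)))
        simpa using h j' (Fin.castSucc_lt_castSucc_iff.1 hj))
      (fun t ht i => hb' t ht _)
    have hl := hb' ε hmem (Fin.last n)
    rw [hmean, hsum, Prod.mk_add_mk, add_zero, hψw] at hmem
    obtain ⟨e, he, hK'⟩ := liftSet_seg hK hβ3 hmem hl
    refine ⟨Fin.snoc ε e, ?_, ?_⟩
    · intro i
      rw [hcs ε e 0]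
      refine Fin.lastCases ?_ (fun j => ?_) i
      · simpa using he
      · simpa using hε j
    · rw [hsn, ← add_assoc]; exact hK'

end Vale.Agent.P262S
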